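import Mathlib

/-!
The swap sum of the symmetric tensor of a product of bivectors: with `w x y` the class of
`x ∧ y` in a commutative ring in which the Pluecker relation holds,
`Psi w a b = (n + 1)! * ∏ w (a k) (b k)`.
-/

namespace Vale.Agent.P273.H573

open Finset

variable {R : Type*} [CommRing R] {H : Type*}

/-- sum over all matchings of the product of the `w (X k) (Y (π k))` -/
def TS (w : H → H → R) (n : ℕ) (X Y : Fin n → H) : R :=
  ∑ π : Equiv.Perm (Fin n), ∏ k, w (X k) (Y (π k))

/-- first slot of a swapped pair -/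
def sl {n : ℕ} (a b : Fin n → H) (S : Fin n → Bool) (k : Fin n) : H :=
  if S k then b k else a k

/-- sum over all swaps, with sign, of the matching sum -/
def Psi (w : H → H → R) (n : ℕ) (a b : Fin n → H) : R :=
  ∑ S : Fin n → Bool, (∏ k, (if S k then (-1 : R) else 1)) * TS w n (sl a b S) (sl b a S)

theorem TS_succ (w : H → H → R) (n : ℕ) (X Y : Fin (n + 1) → H) :
    TS w (n + 1) X Y = w (X 0) (Y 0) * TS w n (fun k => X k.succ) (fun k => Y k.succ) +
      ∑ l : Fin n, ∑ e : Equiv.Perm (Fin n),
        w (X 0) (Y (e l).succ) * w (X l.succ) (Y 0) *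
          ∏ i ∈ univ.erase l, w (X i.succ) (Y (e i).succ) := by
  classical
  unfold TS
  rw [← Equiv.sum_comp (Equiv.Perm.decomposeFin (n := n)).symm, Fintype.sum_prod_type,
    Fin.sum_univ_succ]
  congr 1
  · rw [Finset.mul_sum]
    refine Finset.sum_congr rfl fun e _ => ?_
    rw [Fin.prod_univ_succ]
    simp
  · have h1 : ∀ p : Fin n, ∑ e : Equiv.Perm (Fin n),
        ∏ k, w (X k) (Y (Equiv.Perm.decomposeFin.symm (p.succ, e) k)) =
        ∑ e : Equiv.Perm (Fin n), w (X 0) (Y p.succ) * (w (X (e.symm p).succ) (Y 0) *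
          ∏ i ∈ univ.erase (e.symm p), w (X i.succ) (Y (e i).succ)) := by
      intro p
      refine Finset.sum_congr rfl fun e _ => ?_
      rw [Fin.prod_univ_succ, Equiv.Perm.decomposeFin_symm_apply_zero,
        ← Finset.mul_prod_erase univ _ (Finset.mem_univ (e.symm p))]
      congr 2
      · rw [Equiv.Perm.decomposeFin_symm_apply_succ]
        simp
      · refine Finset.prod_congr rfl fun i hi => ?_
        rw [Equiv.Perm.decomposeFin_symm_apply_succ, Equiv.swap_apply_of_ne_of_ne]
        · exact Fin.succ_ne_zero _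
        · intro h
          apply (Finset.mem_erase.1 hi).1
          rw [Equiv.eq_symm_apply]
          exact Fin.succ_injective _ h
    rw [Finset.sum_congr rfl fun p _ => h1 p, Finset.sum_comm, Finset.sum_comm (s := univ (α := Fin n))]
    refine Finset.sum_congr rfl fun e _ => ?_
    rw [← Equiv.sum_comp e]
    refine Finset.sum_congr rfl fun l _ => ?_
    simp [mul_assoc]

theorem Psi_succ (w : H → H → R) (hw : ∀ x y, w x y = - w y x)
    (hp : ∀ x y a b, w x y * w a b - w x a * w y b + w x b * w y a = 0)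
    (n : ℕ) (a b : Fin (n + 1) → H) :
    Psi w (n + 1) a b = ((n : R) + 2) * w (a 0) (b 0) *
      Psi w n (fun k => a k.succ) (fun k => b k.succ) := by
  classical
  unfold Psi
  rw [← Equiv.sum_comp (Fin.consEquiv (fun _ : Fin (n + 1) => Bool)), Fintype.sum_prod_type,
    Finset.sum_comm, Finset.mul_sum]
  refine Finset.sum_congr rfl fun S _ => ?_
  have hs : ∀ (c : Bool) (u v : Fin (n + 1) → H), (fun k : Fin n =>
      sl u v ((Fin.consEquiv (fun _ : Fin (n + 1) => Bool)) (c, S)) k.succ) =
      sl (fun k => u k.succ) (fun k => v k.succ) S := by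
    intro c u v
    funext k
    simp [sl, Fin.consEquiv]
  have h0 : ∀ (c : Bool) (u v : Fin (n + 1) → H),
      sl u v ((Fin.consEquiv (fun _ : Fin (n + 1) => Bool)) (c, S)) 0 =
      if c then v 0 else u 0 := by
    intro c u v
    simp [sl, Fin.consEquiv]
  have hS : ∀ (c : Bool) (u v : Fin (n + 1) → H) (k : Fin n),
      sl u v ((Fin.consEquiv (fun _ : Fin (n + 1) => Bool)) (c, S)) k.succ =
      sl (fun k => u k.succ) (fun k => v k.succ) S k := fun c u v k => congrFun (hs c u v) k
  have hc : ∀ c : Bool, (∏ k, (if (Fin.consEquiv (fun _ : Fin (n + 1) => Bool)) (c, S) k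
      then (-1 : R) else 1)) = (if c then -1 else 1) * ∏ k, (if S k then (-1 : R) else 1) := by
    intro c
    rw [Fin.prod_univ_succ]
    simp [Fin.consEquiv]
  simp only [TS_succ, h0, hS, hc, Fintype.sum_bool, if_true, Bool.false_eq_true, if_false]
  set P := ∏ k, (if S k then (-1 : R) else 1) with hP
  set X := sl (fun k => a k.succ) (fun k => b k.succ) S with hX
  set Y := sl (fun k => b k.succ) (fun k => a k.succ) S with hY
  have key : ∀ x y, w (a 0) y * w x (b 0) - w (b 0) y * w x (a 0) = w x y * w (a 0) (b 0) := by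
    intro x y
    have h1 := hp x y (a 0) (b 0)
    have h2 := hw (a 0) y
    have h3 := hw (b 0) y
    rw [h2, h3]
    linear_combination -h1
  have hsum : (∑ l : Fin n, ∑ e : Equiv.Perm (Fin n), w (a 0) (Y (e l)) * w (X l) (b 0) *
        ∏ i ∈ univ.erase l, w (X i) (Y (e i))) -
      (∑ l : Fin n, ∑ e : Equiv.Perm (Fin n), w (b 0) (Y (e l)) * w (X l) (a 0) *
        ∏ i ∈ univ.erase l, w (X i) (Y (e i))) = (n : R) * (w (a 0) (b 0) * TS w n X Y) := by
    rw [← Finset.sum_sub_distrib]
    have : ∀ l : Fin n, (∑ e : Equiv.Perm (Fin n), w (a 0) (Y (e l)) * w (X l) (b 0) *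
        ∏ i ∈ univ.erase l, w (X i) (Y (e i))) -
        (∑ e : Equiv.Perm (Fin n), w (b 0) (Y (e l)) * w (X l) (a 0) *
        ∏ i ∈ univ.erase l, w (X i) (Y (e i))) = w (a 0) (b 0) * TS w n X Y := by
      intro l
      rw [← Finset.sum_sub_distrib, TS, Finset.mul_sum]
      refine Finset.sum_congr rfl fun e _ => ?_
      rw [← sub_mul, key, ← Finset.mul_prod_erase univ _ (Finset.mem_univ l)]
      ring
    rw [Finset.sum_congr rfl fun l _ => this l]
    simp
  have h2 := hw (b 0) (a 0)
  rw [h2]
  linear_combination P * hsum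

/-- The swap sum is `(n + 1)!` times the product. -/
theorem Psi_eq (w : H → H → R) (hw : ∀ x y, w x y = - w y x)
    (hp : ∀ x y a b, w x y * w a b - w x a * w y b + w x b * w y a = 0) :
    ∀ (n : ℕ) (a b : Fin n → H), Psi w n a b = ((n + 1).factorial : R) * ∏ k, w (a k) (b k)
  | 0, a, b => by simp [Psi, TS]
  | n + 1, a, b => by
    rw [Psi_succ w hw hp, Psi_eq w hw hp n, Fin.prod_univ_succ, Nat.factorial_succ (n + 1)]
    push_cast
    ring

end Vale.Agent.P273.H573
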