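import Vale.Agent.P273.H573.Skel
import Vale.Agent.P273.H254.Val

/-!
# P273, LIM: corrected statements of three steps

`LimAnn` replaces `LimAnnulus` (the bound on `r` may depend on the coefficient), `ValTP`, `ValAP`
replace `ValT`, `ValA` (the coefficient kills the Pluecker relation).
-/

noncomputable section

namespace Vale.Agent.P273.H573

open Set Filter MeasureTheory H681 H95 H732 H973 H562
open scoped Topology ContDiff

/-- **(S2, annuli)** -/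
def LimAnn (X : Ext) (Θ : Gauge) : Prop :=
  ∀ (i : Fin 3) (v : H213.VV) (D : Loc2 H213.VV ℝ),
    (∀ b ∈ XX, D.Phi v b = PhiF X Θ (H503.mtV v) b) → WtT 8 (H503.mtV v) →
    H213.sV ⟨2 * i, by omega⟩ v = v →
    ∃ r₀ > 0, ∀ r ∈ Ioc 0 r₀,
      H828.ANN D r i v = ∑ R : Region, ∑ m : ∀ k, Fin (R.n k + 1), ∑ far : R.Cm → Bool,
        annR R m X Θ (H503.mtV v) far i (-2 * Real.log (8 * r))

/-- **(S2, tori)** -/
def LimTor (X : Ext) (Θ : Gauge) : Prop :=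
  ∀ (v : H213.VV) (D : Loc2 H213.VV ℝ),
    (∀ b ∈ XX, D.Phi v b = PhiF X Θ (H503.mtV v) b) → WtT 9 (H503.mtV v) →
    ∀ i j : Fin 3, i < j → ∃ r₀ > 0, ∀ r ∈ Ioc 0 r₀,
      H828.TOR D r i j v = ∑ R : Region, ∑ m : ∀ k, Fin (R.n k + 1), ∑ far : R.Cm → Bool,
        torR R m X Θ (H503.mtV v) far i j (-2 * Real.log (8 * r))

theorem LimAnnulus.limAnn {X : Ext} {Θ : Gauge} (h : LimAnnulus X Θ) : LimAnn X Θ := by
  obtain ⟨r₀, h0, h⟩ := h
  exact fun i v D h1 h2 h3 => ⟨r₀, h0, fun r hr => h r hr i v D h1 h2 h3⟩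

theorem LimTorus.limTor {X : Ext} {Θ : Gauge} (h : LimTorus X Θ) : LimTor X Θ := by
  obtain ⟨r₀, h0, h⟩ := h
  exact fun v D h1 _ i j h2 => ⟨r₀, h0, fun r hr => h r hr v D h1 i j h2⟩

/-- **(S7b)** the value on the good pieces, tori -/
def ValTP : Prop := ∀ (p q : ℕ) (hp : p ≤ q) (hq : q ≤ 6) (σ : Bool → Equiv.Perm (Fin 7))
  (e : Bool → Bool) (c : H93.Cell), H93.Nf e c.2.1 c.2.2 → ∀ w : H213.VV, H254.PlV w →
    ∀ i j : Fin 3, i < j →
    cofT (H728.rg (H93.enc c.1 c.2.2 hp hq σ e c.2.1)) (H503.mtV w)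
      (gB (H93.enc c.1 c.2.2 hp hq σ e c.2.1)) i j =
      KL * H25.torC i j w ![p, q - p, 6 - q] * ((H93.sgn σ : ℝ) * H93.sge e)

/-- **(S7c)** the value on the good pieces, annuli -/
def ValAP : Prop := ∀ (p q : ℕ) (hp : p ≤ q) (hq : q ≤ 6) (σ : Bool → Equiv.Perm (Fin 7))
  (e : Bool → Bool) (c : H93.Cell), H93.Nf e c.2.1 c.2.2 → ∀ v : H213.VV, H254.PlV v →
    ∀ i : Fin 3,
    cofA (H728.rg (H93.enc c.1 c.2.2 hp hq σ e c.2.1)) (H503.mtV v)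
      (gB (H93.enc c.1 c.2.2 hp hq σ e c.2.1)) i =
      KL * H25.annC i v ![p, q - p, 6 - q] * ((H93.sgn σ : ℝ) * H93.sge e)

end Vale.Agent.P273.H573

end
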