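import Vale.Agent.P273.H573.Glue
import Vale.Agent.P273.H573.Skel2
import Vale.Agent.P273.H221.Chain
import Vale.Agent.P273.H213.Plk

/-!
# P273, LIM: the limit in the form of the chain

`limTA` gives `H221.LimTA` from the steps of `Skel` and `Skel2`.
-/

noncomputable section

namespace Vale.Agent.P273.H573

open Set Filter MeasureTheory H681 H95 H732 H973 H562
open scoped Topology ContDiff

/-! ### weights -/

theorem mem_MM_of_pA {x : H4} (h : pA x = 0) : x ∈ H213.MM := by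
  have h1 := congrFun h 1
  have h3 := congrFun h 3
  simp only [pA, ContinuousLinearMap.coe_pi', Matrix.cons_val_one, Matrix.cons_val_zero,
    ContinuousLinearMap.proj_apply, Pi.zero_apply] at h1
  simp only [pA, ContinuousLinearMap.coe_pi', Matrix.cons_val,
    ContinuousLinearMap.proj_apply, Pi.zero_apply] at h3
  exact H213.mem_MM.2 ⟨h1, h3⟩

/-- the weights of 213 as weights of the multilinear form -/
theorem wtT_of {n : ℕ} {v : H213.VV} (hv : H213.Wt n v) : WtT n (H503.mtV v) := by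
  intro x hx
  rw [H503.mtV_apply]
  refine H213.TT_kill hv _ ((Finset.univ.filter fun j => pA (x j) = 0).map
    H503.eS.symm.toEmbedding) ?_ ?_
  · rw [Finset.card_map]
    exact hx
  · intro i hi
    rw [Finset.mem_map] at hi
    obtain ⟨j, hj, rfl⟩ := hi
    rw [Equiv.coe_toEmbedding, Equiv.apply_symm_apply]
    exact mem_MM_of_pA (Finset.mem_filter.1 hj).2

theorem sub_sV {k : Fin 5} (hk : k = 0 ∨ k = 2 ∨ k = 4) {n : ℕ} {v : H213.VV}
    (hv : H213.Wt (n + 1) v) : H213.Wt n (v - H213.sV k v) := by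
  rw [← neg_sub]
  exact (H213.Wt.sV_sub hk hv).neg

theorem wtC_of {z : H221.Cert H213.sV} (h : H221.CertOK z) : WtC z where
  w13 := wtT_of h.wt13
  w15 := wtT_of h.wt15
  w35 := wtT_of h.wt35
  v1 := wtT_of ((H213.Wt.sV_sub (k := 2) (by decide) h.wt13).add
    (H213.Wt.sV_sub (k := 4) (by decide) h.wt15))
  v3 := wtT_of ((sub_sV (k := 0) (by decide) h.wt13).add
    (H213.Wt.sV_sub (k := 4) (by decide) h.wt35))
  v5 := wtT_of ((sub_sV (k := 0) (by decide) h.wt15).add (sub_sV (k := 2) (by decide) h.wt35))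

theorem pl_v1 {z : H221.Cert H213.sV} (h : H221.CertOK z) : H254.PlV z.v1 :=
  H213.PlV_add (H213.PlV_sub (H213.PlV_sV _ h.pl13) h.pl13)
    (H213.PlV_sub (H213.PlV_sV _ h.pl15) h.pl15)

theorem pl_v3 {z : H221.Cert H213.sV} (h : H221.CertOK z) : H254.PlV z.v3 :=
  H213.PlV_add (H213.PlV_sub h.pl13 (H213.PlV_sV _ h.pl13))
    (H213.PlV_sub (H213.PlV_sV _ h.pl35) h.pl35)

theorem pl_v5 {z : H221.Cert H213.sV} (h : H221.CertOK z) : H254.PlV z.v5 :=
  H213.PlV_add (H213.PlV_sub h.pl15 (H213.PlV_sV _ h.pl15))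
    (H213.PlV_sub h.pl35 (H213.PlV_sV _ h.pl35))

/-! ### the values for coefficients that kill the Pluecker relation -/

theorem sum_valueP {z : H221.Cert H213.sV} (hz : H221.CertOK z) {X : Ext} {F : H503.Form16}
    (h0 : ValZero) (hT : ValTP) (hA : ValAP) (hP : PieceSum F X) :
    ∑ Q, val z X Q = KL * ∑ q ∈ Finset.range 7, ∑ p ∈ Finset.range (q + 1), H25.CC z p q *
        H93.DS p q (H503.str F) := by
  have h := H93.sum_val (val z X) (fun p q => KL * H25.CC z p q) (H503.str F)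
    (fun p q σ e c => if hp : p ≤ q then if hq : q ≤ 6 then
      ∑ far : (H728.rg (H93.enc c.1 c.2.2 hp hq σ e c.2.1)).Cm → Bool,
        piece (H728.rg (H93.enc c.1 c.2.2 hp hq σ e c.2.1)) X far
          (gB (H93.enc c.1 c.2.2 hp hq σ e c.2.1)) else 0 else 0) ?_ ?_ ?_
  · rw [h, Finset.mul_sum]
    refine Finset.sum_congr rfl fun q _ => ?_
    rw [Finset.mul_sum]
    exact Finset.sum_congr rfl fun p _ => by ring
  · intro Q hQ
    by_cases h9 : ∑ k, (Q.B k).card = 9
    · have hz := h0 Q hQ h9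
      have t : ∀ w i j, valT X (H503.mtV w) i j Q = 0 := by
        intro w i j
        unfold valT
        rw [if_pos h9, Finset.sum_eq_zero]
        intro far _
        rw [(hz _ (H503.symT_mtV w)).1 i j, zero_mul]
      have a : ∀ w i, valA X (H503.mtV w) i Q = 0 := by
        intro w i
        unfold valA
        rw [if_pos h9, Finset.sum_eq_zero]
        intro far _
        rw [(hz _ (H503.symT_mtV w)).2 i, zero_mul]
      unfold val
      rw [t, t, t, a, a, a]
      ring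
    · unfold val valT valA
      simp only [if_neg h9]
      ring
  · intro p q hp hq σ e c hc
    have h9 := good_card (H93.enc_good (f := c.1) (o := c.2.2) (loc := c.2.1) (e := e) hp hq σ)
    have t : ∀ (w : H213.VV), H254.PlV w → ∀ (i j : Fin 3), i < j →
        valT X (H503.mtV w) i j (H93.enc c.1 c.2.2 hp hq σ e c.2.1) =
        KL * H25.torC i j w ![p, q - p, 6 - q] * ((H93.sgn σ : ℝ) * H93.sge e) *
        ∑ far : (H728.rg (H93.enc c.1 c.2.2 hp hq σ e c.2.1)).Cm → Bool,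
        piece (H728.rg (H93.enc c.1 c.2.2 hp hq σ e c.2.1)) X far
          (gB (H93.enc c.1 c.2.2 hp hq σ e c.2.1)) := by
      intro w hw i j hij
      unfold valT
      rw [if_pos h9, Finset.mul_sum]
      refine Finset.sum_congr rfl fun far _ => ?_
      rw [hT p q hp hq σ e c hc w hw i j hij]
    have a : ∀ (v : H213.VV), H254.PlV v → ∀ (i : Fin 3),
        valA X (H503.mtV v) i (H93.enc c.1 c.2.2 hp hq σ e c.2.1) =
        KL * H25.annC i v ![p, q - p, 6 - q] * ((H93.sgn σ : ℝ) * H93.sge e) *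
        ∑ far : (H728.rg (H93.enc c.1 c.2.2 hp hq σ e c.2.1)).Cm → Bool,
        piece (H728.rg (H93.enc c.1 c.2.2 hp hq σ e c.2.1)) X far
          (gB (H93.enc c.1 c.2.2 hp hq σ e c.2.1)) := by
      intro v hv i
      unfold valA
      rw [if_pos h9, Finset.mul_sum]
      refine Finset.sum_congr rfl fun far _ => ?_
      rw [hA p q hp hq σ e c hc v hv i]
    simp only [dif_pos hp, dif_pos hq]
    unfold val
    rw [t _ hz.pl13 _ _ (by decide), t _ hz.pl15 _ _ (by decide), t _ hz.pl35 _ _ (by decide),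
      a _ (pl_v1 hz), a _ (pl_v3 hz), a _ (pl_v5 hz), H25.CC]
    ring
  · intro p q hp hq σ e
    simp only [dif_pos hp, dif_pos hq]
    exact hP p q hp hq σ e

/-! ### the limits of tori and annuli -/

section Lims

variable {X : Ext} {Θ : Gauge} {D : Loc2 H213.VV ℝ}

theorem tendsto_TOR' (h2 : LimTor X Θ) (h5 : LimRegT X Θ) (hS : SumT X)
    (hD : ∀ v, ∀ b ∈ XX, D.Phi v b = PhiF X Θ (H503.mtV v) b) {w : H213.VV}
    (hW : WtT 9 (H503.mtV w)) {i j : Fin 3} (hij : i < j) :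
    Tendsto (fun r => H828.TOR D r i j w) (𝓝[>] 0)
      (𝓝 (∑ Q : H93.RB, valT X (H503.mtV w) i j Q)) := by
  obtain ⟨r₀, hr₀, h⟩ := h2 w D (hD w) hW i j hij
  rw [← sum_torL hS (H503.symT_mtV w) hW hij]
  have h3 : Tendsto (fun r : ℝ => ∑ R : Region, ∑ m : ∀ k, Fin (R.n k + 1),
      ∑ far : R.Cm → Bool, torR R m X Θ (H503.mtV w) far i j (-2 * Real.log (8 * r))) (𝓝[>] 0)
      (𝓝 (∑ R : Region, ∑ m : ∀ k, Fin (R.n k + 1), ∑ far : R.Cm → Bool,
      ∑ B ∈ (Finset.univ : Finset (Finset (W R m).Fr)).filter (fun B => B.card = 6),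
        torL R m X (H503.mtV w) far B i j)) := by
    refine tendsto_finsetSum _ fun R _ => tendsto_finsetSum _ fun m _ =>
      tendsto_finsetSum _ fun far _ => ?_
    exact (h5 _ (H503.symT_mtV w) hW R m far i j hij).comp tendsto_N
  refine h3.congr' ?_
  filter_upwards [Ioc_mem_nhdsGT hr₀] with r hr
  exact (h r hr).symm

theorem tendsto_ANN' (h2 : LimAnn X Θ) (h5 : LimRegA X Θ) (hS : SumA X)
    (hD : ∀ v, ∀ b ∈ XX, D.Phi v b = PhiF X Θ (H503.mtV v) b) {v : H213.VV}
    (hW : WtT 8 (H503.mtV v)) {i : Fin 3} (hv : H213.sV ⟨2 * i, by omega⟩ v = v) :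
    Tendsto (fun r => H828.ANN D r i v) (𝓝[>] 0)
      (𝓝 (∑ Q : H93.RB, valA X (H503.mtV v) i Q)) := by
  obtain ⟨r₀, hr₀, h⟩ := h2 i v D (hD v) hW hv
  rw [← sum_annL hS (H503.symT_mtV v) hW i]
  have hv' : ((H503.mtV v).compContinuousLinearMap fun _ => H95.sH ⟨2 * i, by omega⟩) =
      H503.mtV v := by
    rw [← H503.mtV_sV, hv]
  have h3 : Tendsto (fun r : ℝ => ∑ R : Region, ∑ m : ∀ k, Fin (R.n k + 1),
      ∑ far : R.Cm → Bool, annR R m X Θ (H503.mtV v) far i (-2 * Real.log (8 * r))) (𝓝[>] 0)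
      (𝓝 (∑ R : Region, ∑ m : ∀ k, Fin (R.n k + 1), ∑ far : R.Cm → Bool,
      ∑ B ∈ (Finset.univ : Finset (Finset (W R m).Fr)).filter (fun B => B.card = 6),
        annL R m X (H503.mtV v) far B i)) := by
    refine tendsto_finsetSum _ fun R _ => tendsto_finsetSum _ fun m _ =>
      tendsto_finsetSum _ fun far _ => ?_
    exact (h5 i _ (H503.symT_mtV v) hW hv' R m far).comp tendsto_N
  refine h3.congr' ?_
  filter_upwards [Ioc_mem_nhdsGT hr₀] with r hr
  exact (h r hr).symm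

end Lims

/-! ### the target -/

/-- all open steps of the limit -/
structure Steps (κ : Fin 3 → Fin 3 → ℝ) : Prop where
  torus : ∀ X Θ, Asy κ Θ → LimTor X Θ
  annulus : ∀ X Θ, Asy κ Θ → LimAnn X Θ
  regT : ∀ X Θ, Asy κ Θ → LimRegT X Θ
  regA : ∀ X Θ, Asy κ Θ → LimRegA X Θ
  sumT : ∀ X, SumT X
  sumA : ∀ X, SumA X
  val0 : ValZero
  valT : ValTP
  valA : ValAP
  piece : ∀ (F : H503.Form16) (X : Ext), H183.IsClosedForm H503.Lg14 (8 * 2) F →
    H728.ExtOf F X → PieceSum F X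

/-- **The limit of the chain from the steps.** -/
theorem limTA {κ : Fin 3 → Fin 3 → ℝ} (h : Steps κ) {z : H221.Cert H213.sV}
    (hz : H221.CertOK z) : H221.LimTA κ z KL := by
  intro F X Θ hF hX hΘ
  have hw := wtC_of hz
  have hB := H681.braid_sV
  have hD : ∀ v, ∀ b ∈ XX,
      (H503.loc X Θ H811.bulkSmooth H811.bulkLinear H188.bulkLaw).Phi v b =
        PhiF X Θ (H503.mtV v) b := fun v b hb => H503.loc_Phi X Θ _ _ _ v hb
  rw [← sum_valueP hz h.val0 h.valT h.valA (h.piece F X hF hX)]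
  have h2t := h.torus X Θ hΘ
  have h2a := h.annulus X Θ hΘ
  have h5t := h.regT X Θ hΘ
  have h5a := h.regA X Θ hΘ
  have t1 := tendsto_TOR' h2t h5t (h.sumT X) hD hw.w13 (i := 0) (j := 1) (by decide)
  have t2 := tendsto_TOR' h2t h5t (h.sumT X) hD hw.w15 (i := 0) (j := 2) (by decide)
  have t3 := tendsto_TOR' h2t h5t (h.sumT X) hD hw.w35 (i := 1) (j := 2) (by decide)
  have a1 := tendsto_ANN' h2a h5a (h.sumA X) hD hw.v1 (i := 0) (z.inv_v1 hB)
  have a2 := tendsto_ANN' h2a h5a (h.sumA X) hD hw.v3 (i := 1) (z.inv_v3 hB)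
  have a3 := tendsto_ANN' h2a h5a (h.sumA X) hD hw.v5 (i := 2) (z.inv_v5 hB)
  have h' := ((t1.add t2).add t3).sub ((a1.add a2).add a3)
  simp only [← Finset.sum_add_distrib, ← Finset.sum_sub_distrib] at h'
  exact h'

theorem KL_ne : KL ≠ 0 := by
  have : (Nat.factorial 8 : ℝ) ≠ 0 := Nat.cast_ne_zero.2 (Nat.factorial_ne_zero 8)
  exact neg_ne_zero.2 (mul_ne_zero (by norm_num) this)

/-- **`LimOut` from all open inputs.** -/
theorem limOut {κ : Fin 3 → Fin 3 → ℝ} (hX : H221.ExtAll) (hG : H221.GaugeAll κ)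
    (hN : H879.NegOf) (h : Steps κ) {z : H221.Cert H213.sV} (hz : H221.CertOK z) :
    H503.LimOut (H25.CC z) :=
  H221.limOut hX hG hN KL_ne (limTA h hz)

end Vale.Agent.P273.H573

end
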