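import Vale.Agent.P273.H573.StepsOf
import Vale.Agent.P273.H793.LimFib
import Vale.Agent.P273.H562.RegT

/-!
# P273, LIM: all steps from the pointwise limits
-/

noncomputable section

namespace Vale.Agent.P273.H573

open Set Filter MeasureTheory H681 H95 H732 H973 H562
open scoped Topology ContDiff

/-- **all steps from the pointwise limits** -/
theorem steps_of_pt {κ : Fin 3 → Fin 3 → ℝ} (hT : ∀ X Θ, Asy κ Θ → PtT X Θ)
    (hA : ∀ X Θ, Asy κ Θ → PtA X Θ) : Steps κ :=
  steps_of H793.limFib (fun X Θ h => H562.limRegT H970.measDom H607.measExc H607.nullExc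
    H607.genExc H720.domLim (H970.contOm X Θ) (H975.bdT X h) (hT X Θ h)) hA

end Vale.Agent.P273.H573

end
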