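import Vale.Agent.P273.H573.Skel

/-!
# P273, LIM, step 6: the literal pieces of `SumT`, `SumA`
-/

noncomputable section

namespace Vale.Agent.P273.H573

open Set Filter MeasureTheory H681 H95 H732 H973 H562
open scoped Topology ContDiff

section

variable (R : Region) (m : ∀ k, Fin (R.n k + 1))

/-- the clean directions: the gaps that are not large, and the cores -/
def cln (B : Finset (W R m).Fr) (x : {f // f ∉ B} ⊕ R.Cm) (c : Bool) : Co R m :=
  match x with
  | Sum.inl f => if c then (W R m).vec (.ph f.1) else -(W R m).vec (.u f.1)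
  | Sum.inr g => if c then (W R m).vec (.im g) else (W R m).vec (.re g)

/-- the dirty directions: the large gaps and the base -/
def dty (B : Finset (W R m).Fr) (a b : Co R m) (x : Option {f // f ∈ B}) (c : Bool) : Co R m :=
  match x with
  | some f => if c then (W R m).vec (.ph f.1) else -(W R m).vec (.u f.1)
  | none => if c then b else a

/-- the value of `dλ` on a direction of the base -/
def cval (y : Fin 3 → ℝ) (d : Co R m) : H4 := ∑ l, d.2.2.1 l • dlY y l + ∑ l, d.2.2.2.1 l • dlA y l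

end

/-- **(S6-split)** -/
def Split : Prop := ∀ (X : Ext) (R : Region) (m : ∀ k, Fin (R.n k + 1)) (far : R.Cm → Bool)
  (T : MT) (n : ℕ) (B : Finset (W R m).Fr) (p a b : Co R m), B.card = 6 →
  dqz R m (big R m B) p a = 0 → dqz R m (big R m B) p b = 0 →
  ∀ (e₈ : Fin 8 ≃ {f // f ∉ B} ⊕ R.Cm) (e₇ : Fin 7 ≃ Option {f // f ∈ B}),
    OmL R m X T n (Sx R far) B p (fr30 R m a b) =
      FL R m X (Sx R far) (big R m B) p
        (fun i : Fin 16 => cln R m B (e₈ ⟨i / 2, by omega⟩) (decide ((i : ℕ) % 2 = 1))) *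
      H254.DT (fun x => grT n T x) (fun i (d : Co R m) => thL R m (big R m B) p.2.2.1 (mrk i) d)
        (fun i : Fin 14 => dty R m B a b (e₇ ⟨i / 2, by omega⟩) (decide ((i : ℕ) % 2 = 1)))

/-- **(S6-uni)** -/
def Uni : Prop := ∀ (R : Region) (m : ∀ k, Fin (R.n k + 1)) (T : MT) (n : ℕ)
  (B : Finset (W R m).Fr) (y : Fin 3 → ℝ) (a b : Co R m), B.card = 6 →
  a.1 = 0 → a.2.1 = 0 → b.1 = 0 → b.2.1 = 0 → ∀ e₇ : Fin 7 ≃ Option {f // f ∈ B},
    H254.DT (fun x => grT n T x) (fun i (d : Co R m) => thL R m (big R m B) y (mrk i) d)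
        (fun i : Fin 14 => dty R m B a b (e₇ ⟨i / 2, by omega⟩) (decide ((i : ℕ) % 2 = 1))) =
      DTc R T n (big R m B) y fun c => if c then cval R m y b else cval R m y a

section

variable (R : Region) (Bg : Finset R.Gap)

/-- the surviving coordinates, logarithmic: `u`, `φ` of the surviving gaps, the cores -/
abbrev Lg : Type := ((Sv R Bg → ℝ) × (Sv R Bg → ℝ)) × (R.Cm → ℂ)

/-- the box -/
def box (far : R.Cm → Bool) : Set (Lg R Bg) :=
  {z | (∀ g, 0 < z.1.1 g) ∧ (∀ g, z.1.2 g ∈ Ioc (-Real.pi) Real.pi) ∧ z.2 ∈ {s | ∀ c, s c ∈ zone0 (far c)}}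

open Classical in
/-- the surviving integrand -/
def Gc (X : Ext) (far : R.Cm → Bool) (z : Lg R Bg) : ℝ :=
  if h : Fintype.card (Sv R Bg ⊕ R.Cm) = 8 then
    (∏ g, Real.exp (-2 * z.1.1 g)) * X.H R (Sx R far)
      (embS R Bg (fun g => Complex.exp (-(z.1.1 g : ℂ) + z.1.2 g * Complex.I), z.2))
      fun i : Fin 16 => embS R Bg
        (bS R Bg ((Fintype.equivFinOfCardEq h).symm ⟨i / 2, by omega⟩) (decide ((i : ℕ) % 2 = 1)))
  else 0

end

/-- **(S6-pol)** -/
def Pol : Prop := ∀ (X : Ext) (R : Region) (Bg : Finset R.Gap) (far : R.Cm → Bool),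
  ∫ z in box R Bg far, Gc R Bg X far z = piece R X far Bg

/-- the surviving coordinates of a point of the fibre -/
def rst (R : Region) (m : ∀ k, Fin (R.n k + 1)) (Bg : Finset R.Gap) (x : Fb R m) : Lg R Bg :=
  ((fun g => if h : g.1 ≠ (W R m).last ((W R m).nk g.1) then x.1.1 ⟨g.1, h⟩ else 0,
    fun g => if h : g.1 ≠ (W R m).last ((W R m).nk g.1) then x.1.2 ⟨g.1, h⟩ else 0), x.2)

/-- **(S6-vol)** for every choice of the eliminated gaps; `b_k - 1 = q_k` -/
def Vol : Prop := ∀ (Q : H93.RB) (m : ∀ k, Fin ((H728.rg Q).n k + 1)), (∀ k, (m k).1 ∈ Q.B k) →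
  ∑ k, (Q.B k).card = 9 → ∀ (far : (H728.rg Q).Cm → Bool) (y : Fin 3 → ℝ), (∀ k, 0 < y k) →
  ∀ G : Lg (H728.rg Q) (gB Q) → ℝ,
    ∫ x in domL (H728.rg Q) m far (Q.fr m) y, G (rst (H728.rg Q) m (gB Q) x) =
      (∏ k, y k ^ ((Q.B k).card - 1) / ((Q.B k).card.factorial : ℝ)) * (2 * Real.pi) ^ 6 *
        ∫ z in box (H728.rg Q) (gB Q) far, G z

end Vale.Agent.P273.H573

end
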