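import Vale.Agent.P273.H562.AsyDefs
import Vale.Agent.P273.H732.Conv
import Vale.Agent.P273.H732.Conv93
import Vale.Agent.P273.H93.Last
import Vale.Agent.P273.H503.LocF
import Vale.Agent.P273.H25.Coef
import Vale.Agent.P273.H254.Ev
import Vale.Agent.P273.H728.ExtOf

/-!
# P273, LIM: the limit at the theta point, definitions and the statements of the steps

Chart of a region: helper562 (`W`, `Co`, `emb`, `posE`, `shE`).
-/

noncomputable section

namespace Vale.Agent.P273.H573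

open Set Filter MeasureTheory H681 H95 H732 H973 H562
open scoped Topology ContDiff

/-! ### grading of the multilinear forms -/

/-- the part on `e1, e2` -/
def pM : H4 →L[ℝ] H4 := ContinuousLinearMap.pi
  ![ContinuousLinearMap.proj 0, 0, ContinuousLinearMap.proj 2, 0]

/-- the part on `f1, f2` -/
def pA : H4 →L[ℝ] H4 := ContinuousLinearMap.pi
  ![0, ContinuousLinearMap.proj 1, 0, ContinuousLinearMap.proj 3]

/-- the part of `T` with exactly `n` arguments on `f1, f2` -/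
def grT (n : ℕ) (T : MT) : MT :=
  ∑ τ ∈ (Finset.univ : Finset (Finset (Fin 14))).filter (fun τ => τ.card = n),
    T.compContinuousLinearMap fun j => if j ∈ τ then pA else pM

/-- `T` is zero if at least `n` of its arguments are in the span of `e1, e2` -/
def WtT (n : ℕ) (T : MT) : Prop :=
  ∀ x : Fin 14 → H4, n ≤ (Finset.univ.filter fun j => pA (x j) = 0).card → T x = 0

section Region

variable (R : Region) (m : ∀ k, Fin (R.n k + 1))

/-! ### the form on a region -/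

/-- the `H4`-valued one-form of the mark number `i` in the chart -/
def thR (Θ : Gauge) (S : L → Bool) (i : Fin 14) (p : Co R m) : Co R m →L[ℝ] H4 :=
  (Θ.th i S (posE R m p) (shE R m S p)).comp (fderiv ℝ (posE R m) p)

/-- the form `F` in the chart -/
def FR (X : Ext) (S : L → Bool) (p : Co R m) : Alt 16 (Co R m) :=
  (X.H R S (emb R m p)).compContinuousLinearMap ((H732.scl R).comp ((W R m).dpsi p))

/-- the integrand -/
def OmR (X : Ext) (Θ : Gauge) (T : MT) (S : L → Bool) (p : Co R m) : Alt (16 + 14) (Co R m) :=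
  wedgeT (FR R m X S p) T fun i => thR R m Θ S i p

/-- the two directions of the mark `j`: `-∂_u, ∂_φ` of its gap in the necks, `∂_re, ∂_im` on the
cores -/
def fr (j : L) (c : Bool) : Co R m :=
  match h : R.pl j with
  | Sum.inl k =>
      if c then (W R m).vec (.ph (frE R.n m ⟨k, rkF R h⟩))
      else -(W R m).vec (.u (frE R.n m ⟨k, rkF R h⟩))
  | Sum.inr _ =>
      if c then (W R m).vec (.im ⟨j, by simp [h]⟩) else (W R m).vec (.re ⟨j, by simp [h]⟩)

/-- the frame of the fibre, mark by mark -/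
def fr28 (i : Fin 28) : Co R m := fr R m (mrk ⟨i / 2, by omega⟩) (decide ((i : ℕ) % 2 = 1))

/-- the frame of the fibre and two vectors -/
def fr30 (a b : Co R m) : Fin (16 + 14) → Co R m :=
  Fin.append (m := 28) (n := 2) (fr28 R m) ![a, b]

/-! ### the domain -/

/-- `ε_k` -/
def epsL (y α : Fin 3 → ℝ) (k : Fin 3) : ℂ :=
  (1 / 16) ^ 2 * Complex.exp (-(y k : ℂ) + (α k : ℂ) * Complex.I)

/-- the zones of the core marks -/
def zone (y α : Fin 3 → ℝ) (far : Bool) : Set ℂ :=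
  if far then {w | w ≠ 0 ∧ ‖w‖ < 1 / 11}
  else {x | ‖x‖ ≤ 11 ∧ ∀ k, x ∉ H852.ell (ctr k) (epsL y α k) (1 / 16)}

/-- the zones in the limit -/
def zone0 (far : Bool) : Set ℂ :=
  if far then {w | w ≠ 0 ∧ ‖w‖ < 1 / 11} else {x | ‖x‖ ≤ 11 ∧ ∀ k, 1 / 32 ≤ ‖x - ctr k‖}

/-- the far marks -/
def Sx (far : R.Cm → Bool) (j : L) : Bool := if h : (R.pl j).isRight = true then far ⟨j, h⟩ else false

/-- coordinates of the fibre -/
abbrev Fb : Type := (((W R m).Fr → ℝ) × ((W R m).Fr → ℝ)) × (R.Cm → ℂ)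

/-- the point with fibre coordinates `x` and base coordinates `y`, `α` -/
def mk (y α : Fin 3 → ℝ) (x : Fb R m) : Co R m := (x.1.1, x.1.2, y, α, x.2)

/-- the domain of the fibre coordinates -/
def domF (far : R.Cm → Bool) (y α : Fin 3 → ℝ) : Set (Fb R m) :=
  {x | (∀ f, 0 < x.1.1 f ∧ x.1.1 f < (W R m).ul (mk R m y α x) ((W R m).nk f.1)) ∧
    (∀ f, x.1.2 f ∈ Ioc (-Real.pi) Real.pi) ∧ ∀ c, x.2 c ∈ zone y α (far c)}

/-- the integral over the fibre part of a region, `a`, `b` two vector fields -/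
def IR (X : Ext) (Θ : Gauge) (T : MT) (far : R.Cm → Bool) (y α : Fin 3 → ℝ)
    (a b : Co R m → Co R m) : ℝ :=
  ∫ x in domF R m far y α, OmR R m X Θ T (Sx R far) (mk R m y α x)
    (fr30 R m (a (mk R m y α x)) (b (mk R m y α x)))

end Region

/-! ### STEP 1: the fibre integral is the sum over the regions -/

/-- the roots as a map of `(y, α)` -/
def rtp (q : (Fin 3 → ℝ) × (Fin 3 → ℝ)) : C6 := rootsL q.1 q.2

/-- **(S1)** for long necks: `Φ` on two base vectors is the sum over the regions, the eliminated gaps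
and the near or far core marks. -/
def LimFib (X : Ext) (Θ : Gauge) : Prop :=
  ∃ N₀ : ℝ, ∀ T : MT, SymT T → ∀ y α : Fin 3 → ℝ, (∀ k, N₀ ≤ y k) → (∀ k, -7 ≤ α k ∧ α k ≤ 1) →
    ∀ (a b : (Fin 3 → ℝ) × (Fin 3 → ℝ))
      (va vb : ∀ R m, Co R m → Co R m),
      (∀ R m p, (va R m p).2.2.1 = a.1 ∧ (va R m p).2.2.2.1 = a.2) →
      (∀ R m p, (vb R m p).2.2.1 = b.1 ∧ (vb R m p).2.2.2.1 = b.2) →
      PhiF X Θ T (rootsL y α) ![fderiv ℝ rtp (y, α) a, fderiv ℝ rtp (y, α) b] =
        ∑ R : Region, ∑ m : ∀ k, Fin (R.n k + 1), ∑ far : R.Cm → Bool,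
          IR R m X Θ T far y α (va R m) (vb R m)

/-! ### STEP 2: tori and annuli in the chart -/

/-- lengths on the torus -/
def yT (N : ℝ) : Fin 3 → ℝ := fun _ => N

/-- angles on the torus of the pairs `i`, `j` -/
def aT (i j : Fin 3) (s : Fin 2 → ℝ) : Fin 3 → ℝ := fun k =>
  if k = i then -2 * Real.pi * s 0 else if k = j then -2 * Real.pi * s 1 else 0

/-- lengths on the annulus of the pair `i`; `Y` = length of the neck `i` in units of `N` -/
def yA (i : Fin 3) (N Y : ℝ) : Fin 3 → ℝ := fun k => if k = i then N * Y else N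

/-- angles on the annulus -/
def aA (i : Fin 3) (s : ℝ) : Fin 3 → ℝ := fun k => if k = i then -2 * Real.pi * s else 0

section Region2

variable (R : Region) (m : ∀ k, Fin (R.n k + 1))

/-- the contribution of a region to the torus -/
def torR (X : Ext) (Θ : Gauge) (T : MT) (far : R.Cm → Bool) (i j : Fin 3) (N : ℝ) : ℝ :=
  ∫ s in Icc (0 : Fin 2 → ℝ) 1, IR R m X Θ T far (yT N) (aT i j s)
    (fun _ => (-2 * Real.pi) • (W R m).vec (.al i)) (fun _ => (-2 * Real.pi) • (W R m).vec (.al j))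

/-- the contribution of a region to the annulus -/
def annR (X : Ext) (Θ : Gauge) (T : MT) (far : R.Cm → Bool) (i : Fin 3) (N : ℝ) : ℝ :=
  ∫ q in Ioi (1 : ℝ) ×ˢ Icc (0 : ℝ) 1, N * IR R m X Θ T far (yA i N q.1) (aA i q.2)
    (fun p => (W R m).eul p i) (fun _ => (-2 * Real.pi) • (W R m).vec (.al i))

end Region2

/-- **(S2, tori)** -/
def LimTorus (X : Ext) (Θ : Gauge) : Prop :=
  ∃ r₀ > 0, ∀ r ∈ Ioc 0 r₀, ∀ (v : H213.VV) (D : Loc2 H213.VV ℝ),
    (∀ b ∈ XX, D.Phi v b = PhiF X Θ (H503.mtV v) b) → ∀ i j : Fin 3, i < j →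
    H828.TOR D r i j v = ∑ R : Region, ∑ m : ∀ k, Fin (R.n k + 1), ∑ far : R.Cm → Bool,
      torR R m X Θ (H503.mtV v) far i j (-2 * Real.log (8 * r))

/-- **(S2, annuli)** -/
def LimAnnulus (X : Ext) (Θ : Gauge) : Prop :=
  ∃ r₀ > 0, ∀ r ∈ Ioc 0 r₀, ∀ (i : Fin 3) (v : H213.VV) (D : Loc2 H213.VV ℝ),
    (∀ b ∈ XX, D.Phi v b = PhiF X Θ (H503.mtV v) b) → WtT 8 (H503.mtV v) →
    H213.sV ⟨2 * i, by omega⟩ v = v →
    H828.ANN D r i v = ∑ R : Region, ∑ m : ∀ k, Fin (R.n k + 1), ∑ far : R.Cm → Bool,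
      annR R m X Θ (H503.mtV v) far i (-2 * Real.log (8 * r))

/-! ### STEP 3: the limit integrand -/

section Region3

variable (R : Region) (m : ∀ k, Fin (R.n k + 1))

/-- the number of large gaps of the neck `k` that are not after the rank `i` -/
def cntG (B : Finset R.Gap) (k : Fin 3) (i : ℕ) : ℕ :=
  (B.filter fun g => g.1 = k ∧ (g.2 : ℕ) ≤ i).card

/-- the number of large gaps of the neck `k` -/
def crd (B : Finset R.Gap) (k : Fin 3) : ℕ := (B.filter fun g => g.1 = k).card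

/-- the component of a mark when the gaps in `B` are broken -/
def cmp (B : Finset R.Gap) (j : L) : Bool ⊕ (Fin 3 × ℕ) :=
  match R.pl j with
  | Sum.inr b => Sum.inl b
  | Sum.inl k => if cntG R B k (R.rk j) = 0 then Sum.inl false else
      if cntG R B k (R.rk j) = crd R B k then Sum.inl true else Sum.inr (k, cntG R B k (R.rk j))

/-- the large gaps: the free ones in `B` and the eliminated ones -/
def big (B : Finset (W R m).Fr) : Finset R.Gap :=
  B.map ⟨Subtype.val, Subtype.val_injective⟩ ∪ Finset.univ.image (W R m).last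

/-- the point with the large gaps equal to zero -/
def qz (B : Finset R.Gap) (p : Co R m) : R.Sp :=
  H732.scl R (fun g => if g ∈ B then 0 else (W R m).tau p g, p.2.2.2.2)

/-- its derivative -/
def dqz (B : Finset R.Gap) (p : Co R m) : Co R m →L[ℝ] R.Sp :=
  (H732.scl R).comp (ContinuousLinearMap.prod
    (ContinuousLinearMap.pi fun g => (if g ∈ B then 0 else (W R m).tau p g) •
      ((ContinuousLinearMap.proj g : (R.Gap → ℂ) →L[ℝ] ℂ).comp (W R m).Zc)) (W R m).sc)

/-- the limit of the form `F` -/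
def FL (X : Ext) (S : L → Bool) (B : Finset R.Gap) (p : Co R m) : Alt 16 (Co R m) :=
  (X.H R S (qz R m B p)).compContinuousLinearMap (dqz R m B p)

/-- the value at the core modulo `e1, e2` -/
def lamV (y : Fin 3 → ℝ) : H4 := (∑ k, 1 / y k)⁻¹ • ∑ k, (1 / y k) • H25.tt k

/-- the derivative of the value at the core: `y`-directions modulo `e1, e2` -/
def dlY (y : Fin 3 → ℝ) (l : Fin 3) : H4 :=
  (1 / (y l) ^ 2 / ∑ k, 1 / y k) • (lamV y - H25.tt l)

/-- the derivative of the value at the core: `α`-directions -/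
def dlA (y : Fin 3 → ℝ) (l : Fin 3) : H4 :=
  (-(1 / y l / ∑ k, 1 / y k) / (2 * Real.pi)) • H25.mm l

/-- the scaled limit of the one-form of the mark `j`: on a free component of the neck `k` it is
`2 (t_k - λ) dS / y_k + m_k dΘ / π` (the directions of the base do not matter), on the cores
`± dλ` -/
def thL (B : Finset R.Gap) (y : Fin 3 → ℝ) (j : L) : Co R m →L[ℝ] H4 :=
  match cmp R B j with
  | Sum.inl s => (if s then (-1 : ℝ) else 1) • ∑ l : Fin 3,
      ((ContinuousLinearMap.proj l : (Fin 3 → ℝ) →L[ℝ] ℝ).comp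
          ((ContinuousLinearMap.fst ℝ (Fin 3 → ℝ) ((Fin 3 → ℝ) × (R.Cm → ℂ))).comp
            ((ContinuousLinearMap.snd ℝ ((W R m).Fr → ℝ) _).comp
              (ContinuousLinearMap.snd ℝ ((W R m).Fr → ℝ) _)))).smulRight (dlY y l) +
      (if s then (-1 : ℝ) else 1) • ∑ l : Fin 3,
      ((ContinuousLinearMap.proj l : (Fin 3 → ℝ) →L[ℝ] ℝ).comp
          ((ContinuousLinearMap.fst ℝ (Fin 3 → ℝ) (R.Cm → ℂ)).comp
            ((ContinuousLinearMap.snd ℝ (Fin 3 → ℝ) _).comp
            ((ContinuousLinearMap.snd ℝ ((W R m).Fr → ℝ) _).comp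
              (ContinuousLinearMap.snd ℝ ((W R m).Fr → ℝ) _))))).smulRight (dlA y l)
  | Sum.inr _ =>
      match h : R.pl j with
      | Sum.inl k =>
          (-(Complex.reCLM.comp (wreg.LX R.Cm R.n m k (rkF R h)))).smulRight
              ((2 / y k) • pA (H25.tt k - lamV y)) +
            (Complex.imCLM.comp (wreg.LX R.Cm R.n m k (rkF R h))).smulRight
              ((1 / Real.pi) • H25.mm k)
      | Sum.inr _ => 0

/-- **the limit integrand**; `n = 6` for the tori, `n = 7` for the annuli -/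
def OmL (X : Ext) (T : MT) (n : ℕ) (S : L → Bool) (B : Finset (W R m).Fr) (p : Co R m) :
    Alt (16 + 14) (Co R m) :=
  wedgeT (FL R m X S (big R m B) p) (grT n T) fun i => thL R m (big R m B) p.2.2.1 (mrk i)

end Region3

/-! ### STEP 4: bounds and pointwise limits -/

section Step4

variable (X : Ext) (Θ : Gauge)

/-- **(S4a)** the majorant on the tori -/
def BdT : Prop := ∀ T : MT, SymT T → WtT 9 T → ∃ C N₀ : ℝ, 1 ≤ N₀ ∧
  ∀ R m (far : R.Cm → Bool) (N : ℝ), N₀ ≤ N → ∀ α : Fin 3 → ℝ, (∀ k, -7 ≤ α k ∧ α k ≤ 1) →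
    ∀ x ∈ domF R m far (yT N) α, ∀ i j : Fin 3,
      |OmR R m X Θ T (Sx R far) (mk R m (yT N) α x)
        (fr30 R m ((W R m).vec (.al i)) ((W R m).vec (.al j)))| ≤
        C * ∏ f, max (Real.exp (-x.1.1 f)) (1 / N)

/-- **(S4b)** the majorant on the annuli -/
def BdA : Prop := ∀ (i : Fin 3) (T : MT), SymT T → WtT 8 T →
  (T.compContinuousLinearMap fun _ => H95.sH ⟨2 * i, by omega⟩) = T → ∃ C N₀ : ℝ, 1 ≤ N₀ ∧
  ∀ R m (far : R.Cm → Bool) (N Y : ℝ), N₀ ≤ N → 1 ≤ Y → ∀ α : Fin 3 → ℝ, (∀ k, -7 ≤ α k ∧ α k ≤ 1) →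
    ∀ x ∈ domF R m far (yA i N Y) α,
      |OmR R m X Θ T (Sx R far) (mk R m (yA i N Y) α x)
        (fr30 R m ((W R m).eul (mk R m (yA i N Y) α x) i) ((W R m).vec (.al i)))| ≤
        C / (N * Y ^ (3 / 2 : ℝ)) * ∏ f : (W R m).Fr, max (Real.exp (-x.1.1 f))
          (1 / yA i N Y ((W R m).nk f.1))

/-- generic points of the limit -/
def GenS (R : Region) (m : ∀ k, Fin (R.n k + 1)) (S : L → Bool) (B : Finset (W R m).Fr)
    (p : Co R m) : Prop :=
  Gen R m S (↑B) p ∧ (∀ k, 0 < p.2.2.1 k) ∧ qz R m (big R m B) p ∈ R.dom S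

/-- **(S4c)** the pointwise limits on the tori -/
def PtT : Prop := ∀ T : MT, SymT T → WtT 9 T → ∀ R m (far : R.Cm → Bool)
  (B : Finset (W R m).Fr) (p : Co R m), GenS R m (Sx R far) B p →
    ∀ i j : Fin 3, Tendsto (fun N : ℝ => N ^ B.card *
      OmR R m X Θ T (Sx R far) ((W R m).dpt (↑B) N p)
        (fr30 R m ((W R m).vec (.al i)) ((W R m).vec (.al j)))) atTop
      (𝓝 (if B.card = 6 then OmL R m X T 6 (Sx R far) B p
        (fr30 R m ((W R m).vec (.al i)) ((W R m).vec (.al j))) else 0))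

/-- **(S4d)** the pointwise limits on the annuli -/
def PtA : Prop := ∀ T : MT, SymT T → WtT 8 T → ∀ R m (far : R.Cm → Bool)
  (B : Finset (W R m).Fr) (p : Co R m), GenS R m (Sx R far) B p →
    ∀ i : Fin 3, Tendsto (fun N : ℝ => N ^ (B.card + 1) *
      OmR R m X Θ T (Sx R far) ((W R m).dpt (↑B) N p)
        (fr30 R m ((W R m).eul ((W R m).dpt (↑B) N p) i) ((W R m).vec (.al i)))) atTop
      (𝓝 (if B.card = 6 then OmL R m X T 7 (Sx R far) B p
        (fr30 R m ((W R m).vec (.y i)) ((W R m).vec (.al i))) else 0))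

end Step4

/-! ### STEP 5: the limit of one region -/

section Step5

variable (R : Region) (m : ∀ k, Fin (R.n k + 1))

/-- the domain of the limit -/
def domL (far : R.Cm → Bool) (B : Finset (W R m).Fr) (y : Fin 3 → ℝ) : Set (Fb R m) :=
  {x | (∀ f, 0 < x.1.1 f) ∧
    (∀ f ∈ B, x.1.1 f < szl R m (↑B) (mk R m y 0 x) ((W R m).last ((W R m).nk f.1))) ∧
    (∀ f, x.1.2 f ∈ Ioc (-Real.pi) Real.pi) ∧ ∀ c, x.2 c ∈ zone0 (far c)}

/-- the limit of the torus contribution -/
def torL (X : Ext) (T : MT) (far : R.Cm → Bool) (B : Finset (W R m).Fr) (i j : Fin 3) : ℝ :=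
  ∫ s in Icc (0 : Fin 2 → ℝ) 1, ∫ x in domL R m far B (yT 1),
    OmL R m X T 6 (Sx R far) B (mk R m (yT 1) (aT i j s) x)
      (fr30 R m ((-2 * Real.pi) • (W R m).vec (.al i)) ((-2 * Real.pi) • (W R m).vec (.al j)))

/-- the limit of the annulus contribution -/
def annL (X : Ext) (T : MT) (far : R.Cm → Bool) (B : Finset (W R m).Fr) (i : Fin 3) : ℝ :=
  ∫ q in Ioi (1 : ℝ) ×ˢ Icc (0 : ℝ) 1, ∫ x in domL R m far B (yA i 1 q.1),
    OmL R m X T 7 (Sx R far) B (mk R m (yA i 1 q.1) (aA i q.2) x)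
      (fr30 R m ((W R m).vec (.y i)) ((-2 * Real.pi) • (W R m).vec (.al i)))

end Step5

/-- **(S5a)** -/
def LimRegT (X : Ext) (Θ : Gauge) : Prop := ∀ T : MT, SymT T → WtT 9 T →
  ∀ R m (far : R.Cm → Bool) (i j : Fin 3), i < j →
    Tendsto (torR R m X Θ T far i j) atTop
      (𝓝 (∑ B ∈ (Finset.univ : Finset (Finset (W R m).Fr)).filter (fun B => B.card = 6),
        torL R m X T far B i j))

/-- **(S5b)** -/
def LimRegA (X : Ext) (Θ : Gauge) : Prop := ∀ (i : Fin 3) (T : MT), SymT T → WtT 8 T →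
  (T.compContinuousLinearMap fun _ => H95.sH ⟨2 * i, by omega⟩) = T →
  ∀ R m (far : R.Cm → Bool), Tendsto (annR R m X Θ T far i) atTop
      (𝓝 (∑ B ∈ (Finset.univ : Finset (Finset (W R m).Fr)).filter (fun B => B.card = 6),
        annL R m X T far B i))

/-! ### STEP 6: the values -/

section Step6

variable (R : Region)

/-- the surviving gaps -/
abbrev Sv (B : Finset R.Gap) : Type := {g : R.Gap // g ∉ B}

/-- the region with the gaps in `B` equal to zero -/
def embS (B : Finset R.Gap) : ((Sv R B → ℂ) × (R.Cm → ℂ)) →L[ℝ] R.Sp :=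
  (H732.scl R).comp ((ContinuousLinearMap.pi fun g =>
    if h : g ∉ B then (ContinuousLinearMap.proj (⟨g, h⟩ : Sv R B)) else 0).prodMap
      (ContinuousLinearMap.id ℝ (R.Cm → ℂ)))

/-- basis vectors of the surviving coordinates -/
def bS (B : Finset R.Gap) (x : Sv R B ⊕ R.Cm) (c : Bool) : (Sv R B → ℂ) × (R.Cm → ℂ) :=
  match x with
  | Sum.inl g => (Pi.single g (if c then Complex.I else 1), 0)
  | Sum.inr g => (0, Pi.single g (if c then Complex.I else 1))

open Classical in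
/-- **the integral over a piece of a stratum**: the form of the region where the gaps in `B` are
zero, on the complex frame of the surviving coordinates -/
def piece (X : Ext) (far : R.Cm → Bool) (B : Finset R.Gap) : ℝ :=
  if h : Fintype.card (Sv R B ⊕ R.Cm) = 8 then
    ∫ x in {x : (Sv R B → ℂ) × (R.Cm → ℂ) | (∀ g, ‖x.1 g‖ < 1) ∧ ∀ c, x.2 c ∈ zone0 (far c)},
      X.H R (Sx R far) (embS R B x) fun i : Fin 16 => embS R B
        (bS R B ((Fintype.equivFinOfCardEq h).symm ⟨i / 2, by omega⟩) (decide ((i : ℕ) % 2 = 1)))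
  else 0

/-- the clusters -/
abbrev Cl (B : Finset R.Gap) : Type := {x : Fin 3 × Fin 16 // 1 ≤ (x.2 : ℕ) ∧ (x.2 : ℕ) < crd R B x.1}

/-- the values of the forms of the marks on the directions of the clusters and of the base -/
def lgC (B : Finset R.Gap) (y : Fin 3 → ℝ) (l : Bool → H4) (j : L) :
    Option (Cl R B) × Bool → H4
  | (some c, b) => if cmp R B j = Sum.inr (c.1.1, (c.1.2 : ℕ)) then
      (if b then (1 / Real.pi) • H25.mm c.1.1 else (2 / y c.1.1) • (H25.tt c.1.1 - lamV y)) else 0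
  | (none, b) => match cmp R B j with
    | Sum.inl s => (if s then (-1 : ℝ) else 1) • l b
    | Sum.inr _ => 0

open Classical in
/-- the value of `T` on the clusters and the base -/
def DTc (T : MT) (n : ℕ) (B : Finset R.Gap) (y : Fin 3 → ℝ) (l : Bool → H4) : ℝ :=
  if h : Fintype.card (Option (Cl R B)) = 7 then
    H254.DT (fun x => grT n T x) (fun i => lgC R B y l (mrk i))
      (fun i : Fin 14 => ((Fintype.equivFinOfCardEq h).symm ⟨i / 2, by omega⟩,
        decide ((i : ℕ) % 2 = 1)))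
  else 0

/-- the volume of the simplices -/
def vol (B : Finset R.Gap) (y : Fin 3 → ℝ) : ℝ :=
  ∏ k, y k ^ (crd R B k - 1) / ((crd R B k - 1).factorial : ℝ)

/-- **the coefficient of a piece in the limit of the torus** -/
def cofT (T : MT) (B : Finset R.Gap) (i j : Fin 3) : ℝ :=
  (2 * Real.pi) ^ 6 * vol R B (yT 1) * DTc R T 6 B (yT 1) fun b =>
    (-2 * Real.pi) • dlA (yT 1) (if b then j else i)

/-- **the coefficient of a piece in the limit of the annulus** -/
def cofA (T : MT) (B : Finset R.Gap) (i : Fin 3) : ℝ :=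
  ∫ Y in Ioi (1 : ℝ), (2 * Real.pi) ^ 6 * vol R B (yA i 1 Y) * DTc R T 7 B (yA i 1 Y) fun b =>
    if b then (-2 * Real.pi) • dlA (yA i 1 Y) i else dlY (yA i 1 Y) i

end Step6

/-- the large gaps of a region with gaps -/
def gB (Q : H93.RB) : Finset (H728.rg Q).Gap := Finset.univ.filter fun g => (g.2 : ℕ) ∈ Q.B g.1

/-- **(S6a)** tori: the sum over the eliminated gaps is coefficient times piece -/
def SumT (X : Ext) : Prop := ∀ T : MT, SymT T → WtT 9 T → ∀ i j : Fin 3, i < j →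
  ∀ Q : H93.RB, ∑ k, (Q.B k).card = 9 → ∀ far : (H728.rg Q).Cm → Bool,
    ∑ m : ∀ k, Fin ((H728.rg Q).n k + 1) with ∀ k, (m k).1 ∈ Q.B k,
      torL (H728.rg Q) m X T far (Q.fr m) i j =
    cofT (H728.rg Q) T (gB Q) i j * piece (H728.rg Q) X far (gB Q)

/-- **(S6b)** annuli -/
def SumA (X : Ext) : Prop := ∀ T : MT, SymT T → WtT 8 T → ∀ i : Fin 3,
  ∀ Q : H93.RB, ∑ k, (Q.B k).card = 9 → ∀ far : (H728.rg Q).Cm → Bool,
    ∑ m : ∀ k, Fin ((H728.rg Q).n k + 1) with ∀ k, (m k).1 ∈ Q.B k,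
      annL (H728.rg Q) m X T far (Q.fr m) i =
    cofA (H728.rg Q) T (gB Q) i * piece (H728.rg Q) X far (gB Q)

/-! ### STEP 7: the coefficients, and the sum over the regions -/

/-- **(S7a)** no value off the good pieces -/
def ValZero : Prop := ∀ Q : H93.RB, ¬ Q.Good → ∑ k, (Q.B k).card = 9 → ∀ T : MT, SymT T →
    (∀ i j, cofT (H728.rg Q) T (gB Q) i j = 0) ∧ ∀ i, cofA (H728.rg Q) T (gB Q) i = 0

/-- the constant of the limit -/
def KL : ℝ := -(4096 * (Nat.factorial 8 : ℝ))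

/-- **(S7b)** the value on the good pieces, tori -/
def ValT : Prop := ∀ (p q : ℕ) (hp : p ≤ q) (hq : q ≤ 6) (σ : Bool → Equiv.Perm (Fin 7))
  (e : Bool → Bool) (c : H93.Cell), H93.Nf e c.2.1 c.2.2 → ∀ (w : H213.VV) (i j : Fin 3), i < j →
    cofT (H728.rg (H93.enc c.1 c.2.2 hp hq σ e c.2.1)) (H503.mtV w)
      (gB (H93.enc c.1 c.2.2 hp hq σ e c.2.1)) i j =
      KL * H25.torC i j w ![p, q - p, 6 - q] * ((H93.sgn σ : ℝ) * H93.sge e)

/-- **(S7c)** the value on the good pieces, annuli -/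
def ValA : Prop := ∀ (p q : ℕ) (hp : p ≤ q) (hq : q ≤ 6) (σ : Bool → Equiv.Perm (Fin 7))
  (e : Bool → Bool) (c : H93.Cell), H93.Nf e c.2.1 c.2.2 → ∀ (v : H213.VV) (i : Fin 3),
    cofA (H728.rg (H93.enc c.1 c.2.2 hp hq σ e c.2.1)) (H503.mtV v)
      (gB (H93.enc c.1 c.2.2 hp hq σ e c.2.1)) i =
      KL * H25.annC i v ![p, q - p, 6 - q] * ((H93.sgn σ : ℝ) * H93.sge e)

/-- **(S8)** the pieces of a stratum -/
def PieceSum (F : H503.Form16) (X : Ext) : Prop := ∀ (p q : ℕ) (hp : p ≤ q) (hq : q ≤ 6)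
  (σ : Bool → Equiv.Perm (Fin 7)) (e : Bool → Bool),
    ∑ c : H93.Cell with H93.Nf e c.2.1 c.2.2,
      ∑ far : (H728.rg (H93.enc c.1 c.2.2 hp hq σ e c.2.1)).Cm → Bool,
        piece (H728.rg (H93.enc c.1 c.2.2 hp hq σ e c.2.1)) X far
          (gB (H93.enc c.1 c.2.2 hp hq σ e c.2.1)) =
      H503.str F (H93.thE e p q σ)

/-! ### THE TARGET -/

/-- the weight conditions of the certificate -/
structure WtC (z : H221.Cert H213.sV) : Prop where
  w13 : WtT 9 (H503.mtV z.w13)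
  w15 : WtT 9 (H503.mtV z.w15)
  w35 : WtT 9 (H503.mtV z.w35)
  v1 : WtT 8 (H503.mtV z.v1)
  v3 : WtT 8 (H503.mtV z.v3)
  v5 : WtT 8 (H503.mtV z.v5)

/-- **LIMT** -/
def LimT (z : H221.Cert H213.sV) (Θ : Gauge) : Prop :=
  ∀ F : H503.Form16, H183.IsClosedForm H503.Lg14 (8 * 2) F → ∀ X : Ext, H728.ExtOf F X →
  ∀ D : Loc2 H213.VV ℝ, (∀ v, ∀ b ∈ XX, D.Phi v b = PhiF X Θ (H503.mtV v) b) →
    Tendsto (H221.TA z D) (𝓝[>] 0) (𝓝 (KL *
      ∑ q ∈ Finset.range 7, ∑ p ∈ Finset.range (q + 1), H25.CC z p q *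
        H93.DS p q (H503.str F)))

end Vale.Agent.P273.H573

end
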