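import Vale.Agent.P273.H573.SumDefs
import Vale.Agent.P273.H92.PolarForm
import Vale.Agent.P273.H92.Pairs

/-!
# P273, LIM, step 6: the limit of the form on the clean directions
-/

noncomputable section

namespace Vale.Agent.P273.H573

open Set Filter MeasureTheory H681 H95 H732 H973 H562
open scoped Topology ContDiff

variable (R : Region) (m : ∀ k, Fin (R.n k + 1)) (B : Finset (W R m).Fr)

theorem mem_big {g : R.Gap} : g ∈ big R m B ↔
    (∃ h : g ≠ (W R m).last ((W R m).nk g), (⟨g, h⟩ : (W R m).Fr) ∈ B) ∨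
      g = (W R m).last ((W R m).nk g) := by
  classical
  unfold big
  rw [Finset.mem_union, Finset.mem_map, Finset.mem_image]
  constructor
  · rintro (⟨f, hf, rfl⟩ | ⟨k, -, rfl⟩)
    · exact Or.inl ⟨f.2, hf⟩
    · exact Or.inr rfl
  · rintro (⟨h, hf⟩ | h)
    · exact Or.inl ⟨⟨g, h⟩, hf, rfl⟩
    · exact Or.inr ⟨(W R m).nk g, Finset.mem_univ _, h.symm⟩

theorem free_of {g : R.Gap} (h : g ∉ big R m B) : g ≠ (W R m).last ((W R m).nk g) :=
  fun h' => h ((mem_big R m B).2 (Or.inr h'))

/-- the surviving gaps are the free gaps that are not in `B` -/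
def svE : Sv R (big R m B) ≃ {f : (W R m).Fr // f ∉ B} where
  toFun g := ⟨⟨g.1, free_of R m B g.2⟩, fun h => g.2 ((mem_big R m B).2 (Or.inl ⟨_, h⟩))⟩
  invFun f := ⟨f.1.1, fun h => by
    rcases (mem_big R m B).1 h with ⟨_, h1⟩ | h1
    · exact f.2 h1
    · exact f.1.2 h1⟩
  left_inv _ := rfl
  right_inv _ := rfl

/-- surviving gap -/
theorem tau_free (p : Co R m) (f : (W R m).Fr) :
    (W R m).tau p f.1 = Complex.exp (-(p.1 f : ℂ) + p.2.1 f * Complex.I) := by
  unfold Reg.tau Reg.Z Reg.ug Reg.fg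
  rw [dif_pos f.2, dif_pos f.2]

theorem norm_tau_free (p : Co R m) (f : (W R m).Fr) :
    ‖(W R m).tau p f.1‖ ^ 2 = Real.exp (-2 * p.1 f) := by
  rw [Reg.norm_tau, Reg.ug, dif_pos f.2, ← Real.exp_nat_mul]
  congr 1
  push_cast
  ring

theorem embS_inl (g : Sv R (big R m B)) (c : Bool) :
    embS R (big R m B) (bS R (big R m B) (Sum.inl g) c) =
      H732.scl R (Pi.single g.1 (if c then Complex.I else 1), 0) := by
  unfold embS bS
  rw [ContinuousLinearMap.comp_apply]
  congr 1
  refine Prod.ext (funext fun g' => ?_) rfl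
  simp only [ContinuousLinearMap.coe_prodMap', Prod.map_fst, ContinuousLinearMap.coe_pi']
  by_cases h : g' ∉ big R m B
  · rw [dif_pos h, ContinuousLinearMap.proj_apply]
    by_cases h1 : g' = g.1
    · subst h1
      refine Eq.trans ?_ (Pi.single_eq_same (M := fun _ : R.Gap => ℂ) _ _).symm
      exact Pi.single_eq_same (M := fun _ : Sv R (big R m B) => ℂ) _ _
    · rw [Pi.single_eq_of_ne h1]
      exact Pi.single_eq_of_ne (M := fun _ : Sv R (big R m B) => ℂ)
        (fun h2 => h1 (congrArg Subtype.val h2)) _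
  · rw [dif_neg h]
    have h1 : g' ≠ g.1 := fun h1 => h (h1 ▸ g.2)
    rw [Pi.single_eq_of_ne h1]
    rfl

theorem embS_inr (g : R.Cm) (c : Bool) :
    embS R (big R m B) (bS R (big R m B) (Sum.inr g) c) =
      H732.scl R (0, Pi.single g (if c then Complex.I else 1)) := by
  unfold embS bS
  rw [ContinuousLinearMap.comp_apply]
  congr 1
  refine Prod.ext (funext fun g' => ?_) rfl
  simp only [ContinuousLinearMap.coe_prodMap', Prod.map_fst, ContinuousLinearMap.coe_pi']
  by_cases h : g' ∉ big R m B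
  · rw [dif_pos h, ContinuousLinearMap.proj_apply]
    rfl
  · rw [dif_neg h]
    rfl

theorem dqz_apply (p w : Co R m) : dqz R m (big R m B) p w = H732.scl R
    (fun g => (if g ∈ big R m B then 0 else (W R m).tau p g) * (W R m).Z w g, w.2.2.2.2) := by
  unfold dqz
  rw [ContinuousLinearMap.comp_apply]
  congr 1

theorem Z_neg_vec_u (f : (W R m).Fr) (g : R.Gap) (hg : g ∉ big R m B) :
    (W R m).Z (-(W R m).vec (.u f) : Co R m) g = if g = f.1 then 1 else 0 := by
  have h1 : (W R m).Z (-(W R m).vec (.u f) : Co R m) g =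
      -(W R m).Z ((W R m).vec (.u f) : Co R m) g := by
    have := congrFun (map_neg (W R m).Zl ((W R m).vec (.u f) : Co R m)) g
    exact this
  rw [h1, Reg.Z_vec_u]
  have h2 : g ≠ (W R m).last ((W R m).nk f.1) := fun h => by
    refine free_of R m B hg ?_
    rw [h]
    rfl
  rw [if_neg h2]
  split_ifs <;> simp

theorem Z_vec_ph' (f : (W R m).Fr) (g : R.Gap) (hg : g ∉ big R m B) :
    (W R m).Z ((W R m).vec (.ph f) : Co R m) g = if g = f.1 then Complex.I else 0 := by
  rw [Reg.Z_vec_ph]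
  have h2 : g ≠ (W R m).last ((W R m).nk f.1) := fun h => by
    refine free_of R m B hg ?_
    rw [h]
    rfl
  rw [if_neg h2]

theorem dqz_gap (p : Co R m) (f : {f : (W R m).Fr // f ∉ B}) (c : Bool) :
    dqz R m (big R m B) p (cln R m B (Sum.inl f) c) =
      H732.scl R (Pi.single f.1.1 ((W R m).tau p f.1.1 * if c then Complex.I else 1), 0) := by
  rw [dqz_apply]
  congr 1
  refine Prod.ext (funext fun g => ?_) ?_
  · change (if g ∈ big R m B then 0 else (W R m).tau p g) * (W R m).Z _ g =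
      (Pi.single f.1.1 ((W R m).tau p f.1.1 * if c then Complex.I else 1) : R.Gap → ℂ) g
    have hf : f.1.1 ∉ big R m B := ((svE R m B).symm f).2
    by_cases hg : g ∈ big R m B
    · rw [if_pos hg, zero_mul, Pi.single_eq_of_ne]
      rintro rfl
      exact hf hg
    · rw [if_neg hg]
      have h1 : (W R m).Z (cln R m B (Sum.inl f) c) g =
          if g = f.1.1 then (if c then Complex.I else 1) else 0 := by
        cases c
        · simp only [cln, Bool.false_eq_true, if_false]
          exact Z_neg_vec_u R m B f.1 g hg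
        · simp only [cln, if_true]
          exact Z_vec_ph' R m B f.1 g hg
      rw [h1]
      by_cases h2 : g = f.1.1
      · subst h2
        rw [if_pos rfl, Pi.single_eq_same]
      · rw [if_neg h2, mul_zero, Pi.single_eq_of_ne h2]
  · cases c
    · simp [cln, Reg.vec]
    · simp [cln, Reg.vec]

theorem dqz_core (p : Co R m) (g : R.Cm) (c : Bool) :
    dqz R m (big R m B) p (cln R m B (Sum.inr g) c) =
      embS R (big R m B) (bS R (big R m B) (Sum.inr g) c) := by
  rw [dqz_apply, embS_inr]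
  congr 1
  cases c
  · refine Prod.ext (funext fun g' => ?_) ?_
    · simp only [cln, Bool.false_eq_true, if_false]
      rw [Reg.Z_vec_re, mul_zero]
      rfl
    · simp [cln, Reg.vec]
  · refine Prod.ext (funext fun g' => ?_) ?_
    · simp only [cln, if_true]
      rw [Reg.Z_vec_im, mul_zero]
      rfl
    · simp [cln, Reg.vec]

/-- the clean direction in the complex frame -/
theorem dqz_gap' (p : Co R m) (f : {f : (W R m).Fr // f ∉ B}) (c : Bool) :
    dqz R m (big R m B) p (cln R m B (Sum.inl f) c) =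
      (if c then -((W R m).tau p f.1.1).im else ((W R m).tau p f.1.1).re) •
        embS R (big R m B) (bS R (big R m B) (Sum.inl ((svE R m B).symm f)) false) +
      (if c then ((W R m).tau p f.1.1).re else ((W R m).tau p f.1.1).im) •
        embS R (big R m B) (bS R (big R m B) (Sum.inl ((svE R m B).symm f)) true) := by
  rw [dqz_gap, embS_inl, embS_inl, ← map_smul, ← map_smul, ← map_add]
  congr 1
  have h0 : ((svE R m B).symm f).1 = f.1.1 := rfl
  rw [h0]
  refine Prod.ext (funext fun g => ?_) ?_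
  swap
  · cases c <;> simp
  simp only [Prod.smul_mk, Prod.mk_add_mk, Pi.add_apply, Pi.smul_apply, Bool.false_eq_true,
    if_false, if_true]
  by_cases h : g = f.1.1
  · subst h
    rw [Pi.single_eq_same, Pi.single_eq_same, Pi.single_eq_same]
    cases c
    · apply Complex.ext <;> simp
    · apply Complex.ext <;> simp
  · rw [Pi.single_eq_of_ne h, Pi.single_eq_of_ne h, Pi.single_eq_of_ne h]
    simp

theorem qz_eq_embS (p : Co R m) : qz R m (big R m B) p = embS R (big R m B)
    (fun g => (W R m).tau p g.1, p.2.2.2.2) := by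
  unfold qz embS
  rw [ContinuousLinearMap.comp_apply]
  congr 1
  refine Prod.ext (funext fun g => ?_) rfl
  simp only [ContinuousLinearMap.coe_prodMap', Prod.map_fst, ContinuousLinearMap.coe_pi']
  by_cases h : g ∈ big R m B
  · rw [if_pos h, dif_neg (not_not.2 h)]
    rfl
  · rw [if_neg h, dif_pos h]
    rfl

/-- the fibre coordinates of a point -/
def fbc (p : Co R m) : Fb R m := ((p.1, p.2.1), p.2.2.2.2)

theorem Gc_eq (X : Ext) (far : R.Cm → Bool) (p : Co R m)
    (e₈ : Fin 8 ≃ {f // f ∉ B} ⊕ R.Cm) :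
    FL R m X (Sx R far) (big R m B) p
        (fun i : Fin 16 => cln R m B (e₈ ⟨i / 2, by omega⟩) (decide ((i : ℕ) % 2 = 1))) =
      Gc R (big R m B) X far (rst R m (big R m B) (fbc R m p)) := by
  classical
  set Bg := big R m B with hBg
  let E : Fin 8 ≃ Sv R Bg ⊕ R.Cm := e₈.trans (Equiv.sumCongr (svE R m B).symm (Equiv.refl _))
  have hc : Fintype.card (Sv R Bg ⊕ R.Cm) = 8 := by
    rw [← Fintype.card_congr E, Fintype.card_fin]
  have hr1 : ∀ g : Sv R Bg, (rst R m Bg (fbc R m p)).1.1 g = p.1 ⟨g.1, free_of R m B g.2⟩ :=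
    fun g => dif_pos (free_of R m B g.2)
  have hr2 : ∀ g : Sv R Bg, (rst R m Bg (fbc R m p)).1.2 g = p.2.1 ⟨g.1, free_of R m B g.2⟩ :=
    fun g => dif_pos (free_of R m B g.2)
  have hτ : (fun g : Sv R Bg => Complex.exp (-((rst R m Bg (fbc R m p)).1.1 g : ℂ) +
      (rst R m Bg (fbc R m p)).1.2 g * Complex.I)) = fun g => (W R m).tau p g.1 := by
    funext g
    rw [hr1, hr2]
    exact (tau_free R m p ⟨g.1, free_of R m B g.2⟩).symm
  unfold Gc
  have hc' : Fintype.card (Sv R Bg ⊕ R.Cm) = 8 := by convert hc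
  rw [dif_pos hc']
  -- the two frames
  let v : Fin 8 → Bool → R.Sp := fun i c => embS R Bg (bS R Bg (E i) c)
  have h2 : (rst R m Bg (fbc R m p)).2 = p.2.2.2.2 := rfl
  rw [hτ, h2, ← qz_eq_embS]
  set η := (X.H R (Sx R far) (qz R m Bg p)).toAlternatingMap with hη
  set θ : Sv R Bg ⊕ R.Cm ≃ Fin 8 := Fintype.equivFinOfCardEq hc' with hθ
  have hord := H92.alt_pairs16 η v (θ.symm.trans E.symm)
  simp only [v, Equiv.trans_apply, Equiv.apply_symm_apply] at hord
  change X.H R (Sx R far) (qz R m Bg p) _ = _ * η _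
  rw [hord]
  -- pairs
  let a : {f : (W R m).Fr // f ∉ B} → Fin 16 := fun f =>
    ⟨2 * (e₈.symm (Sum.inl f) : ℕ), by have := (e₈.symm (Sum.inl f)).2; omega⟩
  let b : {f : (W R m).Fr // f ∉ B} → Fin 16 := fun f =>
    ⟨2 * (e₈.symm (Sum.inl f) : ℕ) + 1, by have := (e₈.symm (Sum.inl f)).2; omega⟩
  have ha2 : ∀ f, (⟨(a f : ℕ) / 2, by omega⟩ : Fin 8) = e₈.symm (Sum.inl f) := fun f =>
    Fin.ext (by simp only [a]; omega)
  have hb2 : ∀ f, (⟨(b f : ℕ) / 2, by omega⟩ : Fin 8) = e₈.symm (Sum.inl f) := fun f =>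
    Fin.ext (by simp only [b]; omega)
  have ha3 : ∀ f, decide ((a f : ℕ) % 2 = 1) = false := fun f => by
    simp only [a, decide_eq_false_iff_not]; omega
  have hb3 : ∀ f, decide ((b f : ℕ) % 2 = 1) = true := fun f => by
    simp only [b, decide_eq_true_eq]; omega
  have hEf : ∀ f, E (e₈.symm (Sum.inl f)) = Sum.inl ((svE R m B).symm f) := fun f => by
    simp [E]
  have key := H92.alt_many η
    (fun i : Fin 16 => embS R Bg (bS R Bg (E ⟨i / 2, by omega⟩) (decide ((i : ℕ) % 2 = 1))))
    (fun i : Fin 16 => dqz R m Bg p (cln R m B (e₈ ⟨i / 2, by omega⟩)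
      (decide ((i : ℕ) % 2 = 1)))) a b ?_ ?_ ?_
    (fun f => ((W R m).tau p f.1.1).re) (fun f => ((W R m).tau p f.1.1).im)
    (fun f => -((W R m).tau p f.1.1).im) (fun f => ((W R m).tau p f.1.1).re) Finset.univ ?_ ?_ ?_
  · refine Eq.trans key ?_
    rw [smul_eq_mul]
    congr 1
    rw [← Equiv.prod_comp (svE R m B)]
    refine Finset.prod_congr rfl fun g _ => ?_
    rw [hr1]
    have h3 := norm_tau_free R m p (svE R m B g).1
    have h4 : ((svE R m B g).1 : (W R m).Fr) = ⟨g.1, free_of R m B g.2⟩ := rfl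
    rw [h4] at h3
    rw [← h3, Complex.sq_norm, Complex.normSq_apply]
    change ((W R m).tau p g.1).re * ((W R m).tau p g.1).re -
      ((W R m).tau p g.1).im * -((W R m).tau p g.1).im = _
    ring
  · intro f f' h
    have h' : 2 * (e₈.symm (Sum.inl f) : ℕ) = 2 * (e₈.symm (Sum.inl f') : ℕ) :=
      congrArg Fin.val h
    exact Sum.inl_injective (e₈.symm.injective (Fin.ext (by omega)))
  · intro f f' h
    have h' : 2 * (e₈.symm (Sum.inl f) : ℕ) + 1 = 2 * (e₈.symm (Sum.inl f') : ℕ) + 1 :=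
      congrArg Fin.val h
    exact Sum.inl_injective (e₈.symm.injective (Fin.ext (by omega)))
  · intro f f' h
    have h' : 2 * (e₈.symm (Sum.inl f) : ℕ) = 2 * (e₈.symm (Sum.inl f') : ℕ) + 1 :=
      congrArg Fin.val h
    omega
  · intro f _
    rw [ha2, hb2, ha3, hb3, Equiv.apply_symm_apply, hEf, dqz_gap']
    simp only [Bool.false_eq_true, if_false]
    rfl
  · intro f _
    rw [ha2, hb2, ha3, hb3, Equiv.apply_symm_apply, hEf, dqz_gap']
    simp only [if_true]
    rfl
  · intro j hj
    rcases hx : e₈ ⟨(j : ℕ) / 2, by omega⟩ with f | g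
    · exfalso
      have h5 : e₈.symm (Sum.inl f) = ⟨(j : ℕ) / 2, by omega⟩ := by
        rw [← hx, Equiv.symm_apply_apply]
      have h6 : (e₈.symm (Sum.inl f) : ℕ) = (j : ℕ) / 2 := congrArg Fin.val h5
      obtain ⟨h7, h8⟩ := hj f (Finset.mem_univ _)
      rcases Nat.mod_two_eq_zero_or_one (j : ℕ) with h9 | h9
      · exact h7 (Fin.ext (by simp only [a]; omega))
      · exact h8 (Fin.ext (by simp only [b]; omega))
    · rw [dqz_core]
      congr 2
      simp [E, hx]

end Vale.Agent.P273.H573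

end
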