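import Vale.Agent.P273.H573.Skel

/-!
# P273, LIM: the limit from the steps
-/

noncomputable section

namespace Vale.Agent.P273.H573

open Set Filter MeasureTheory H681 H95 H732 H973 H562
open scoped Topology ContDiff

/-! ### the number of free large gaps -/

theorem card_fr (Q : H93.RB) (m : ∀ k, Fin (Q.n k + 1)) (hm : ∀ k, (m k).1 ∈ Q.B k) :
    (Q.fr m).card + 3 = ∑ k, (Q.B k).card := by
  classical
  have h1 : (Q.fr m).card = ∑ k, ((Q.B k).erase (m k).1).card := by
    rw [Finset.card_eq_sum_card_fiberwise (f := fun f => f.1.1) (t := Finset.univ)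
      (fun _ _ => Finset.mem_coe.2 (Finset.mem_univ _))]
    refine Finset.sum_congr rfl fun k _ => ?_
    refine Finset.card_bij (fun f _ => f.1.2.1) ?_ ?_ ?_
    · intro f hf
      rw [Finset.mem_filter, H93.RB.fr, H93.mem_frS] at hf
      obtain ⟨h, rfl⟩ := hf
      refine Finset.mem_erase.2 ⟨fun h' => f.2 ?_, h⟩
      exact Sigma.ext rfl (heq_of_eq (Fin.ext h'))
    · intro f hf g hg h
      rw [Finset.mem_filter] at hf hg
      obtain ⟨⟨⟨k1, i1⟩, p1⟩, rfl⟩ : ∃ f' : (wreg Q.n m).Fr, f' = f := ⟨f, rfl⟩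
      obtain ⟨⟨⟨k2, i2⟩, p2⟩, rfl⟩ : ∃ f' : (wreg Q.n m).Fr, f' = g := ⟨g, rfl⟩
      have e1 : k1 = k := hf.2
      have e2 : k2 = k := hg.2
      subst e1
      subst e2
      have e3 : i1 = i2 := Fin.ext h
      subst e3
      rfl
    · intro i hi
      rw [Finset.mem_erase] at hi
      have hi' : i < Q.n k + 1 := Nat.lt_succ_iff.2 (Q.sub k i hi.2)
      refine ⟨⟨⟨k, ⟨i, hi'⟩⟩, fun h' => hi.1 ?_⟩, ?_, rfl⟩
      · exact congrArg Fin.val (eq_of_heq (Sigma.mk.inj h').2)
      · rw [Finset.mem_filter, H93.RB.fr, H93.mem_frS]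
        exact ⟨hi.2, rfl⟩
  have h2 : ∀ k, ((Q.B k).erase (m k).1).card + 1 = (Q.B k).card := fun k =>
    Finset.card_erase_add_one (hm k)
  rw [h1, ← Finset.sum_congr rfl fun k _ => h2 k, Finset.sum_add_distrib]
  simp

/-! ### the parameter -/

theorem tendsto_N : Tendsto (fun r : ℝ => -2 * Real.log (8 * r)) (𝓝[>] 0) atTop := by
  have h1 : Tendsto (fun r : ℝ => 8 * r) (𝓝[>] 0) (𝓝[>] 0) := by
    refine tendsto_nhdsWithin_iff.2 ⟨?_, ?_⟩
    · have : Tendsto (fun r : ℝ => 8 * r) (𝓝 0) (𝓝 (8 * 0)) :=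
        (continuous_const.mul continuous_id).tendsto 0
      rw [mul_zero] at this
      exact this.mono_left nhdsWithin_le_nhds
    · filter_upwards [self_mem_nhdsWithin] with r hr
      exact mul_pos (a := (8 : ℝ)) (by norm_num) hr
  have h2 := Real.tendsto_log_nhdsGT_zero.comp h1
  exact h2.const_mul_atBot_of_neg (r := -2) (by norm_num)

/-! ### the sum over the regions -/

/-- the limit of a region with gaps: tori -/
def valT (X : Ext) (T : MT) (i j : Fin 3) (Q : H93.RB) : ℝ :=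
  if ∑ k, (Q.B k).card = 9 then
    ∑ far : (H728.rg Q).Cm → Bool, cofT (H728.rg Q) T (gB Q) i j * piece (H728.rg Q) X far (gB Q)
  else 0

/-- the limit of a region with gaps: annuli -/
def valA (X : Ext) (T : MT) (i : Fin 3) (Q : H93.RB) : ℝ :=
  if ∑ k, (Q.B k).card = 9 then
    ∑ far : (H728.rg Q).Cm → Bool, cofA (H728.rg Q) T (gB Q) i * piece (H728.rg Q) X far (gB Q)
  else 0

theorem sum_torL {X : Ext} (hS : SumT X) {T : MT} (hT : SymT T) (hW : WtT 9 T) {i j : Fin 3}
    (hij : i < j) :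
    ∑ R : Region, ∑ m : ∀ k, Fin (R.n k + 1), ∑ far : R.Cm → Bool,
      ∑ B ∈ (Finset.univ : Finset (Finset (W R m).Fr)).filter (fun B => B.card = 6),
        torL R m X T far B i j = ∑ Q : H93.RB, valT X T i j Q := by
  have h1 : ∀ (R : Region) (m : ∀ k, Fin (R.n k + 1)), (∑ far : R.Cm → Bool,
      ∑ B ∈ (Finset.univ : Finset (Finset (W R m).Fr)).filter (fun B => B.card = 6),
        torL R m X T far B i j) = ∑ B : Finset (W R m).Fr,
          if B.card = 6 then ∑ far : R.Cm → Bool, torL R m X T far B i j else 0 := by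
    intro R m
    rw [Finset.sum_comm, Finset.sum_filter]
  rw [Finset.sum_congr rfl fun R _ => Finset.sum_congr rfl fun m _ => h1 R m]
  rw [H93.sum_J95 (fun R m B =>
    if B.card = 6 then ∑ far : R.Cm → Bool, torL R m X T far B i j else 0)]
  refine Finset.sum_congr rfl fun Q _ => ?_
  unfold valT
  split_ifs with h9
  · have h2 : ∀ m ∈ (Finset.univ : Finset (∀ k, Fin (Q.n k + 1))).filter
        (fun m => ∀ k, (m k).1 ∈ Q.B k), (if (Q.fr m).card = 6 then
          ∑ far : (conv93.symm Q.toReg).Cm → Bool,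
            torL (conv93.symm Q.toReg) m X T far (Q.fr m) i j else 0) =
        ∑ far : (H728.rg Q).Cm → Bool, torL (H728.rg Q) m X T far (Q.fr m) i j := by
      intro m hm
      have h3 := card_fr Q m (Finset.mem_filter.1 hm).2
      have h4 : (Q.fr m).card = 6 := by omega
      exact if_pos h4
    refine (Finset.sum_congr rfl h2).trans ?_
    rw [Finset.sum_comm]
    exact Finset.sum_congr rfl fun far _ => hS T hT hW i j hij Q h9 far
  · refine Finset.sum_eq_zero fun m hm => ?_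
    have h3 := card_fr Q m (Finset.mem_filter.1 hm).2
    have h4 : ¬ (Q.fr m).card = 6 := by omega
    exact if_neg h4

theorem sum_annL {X : Ext} (hS : SumA X) {T : MT} (hT : SymT T) (hW : WtT 8 T) (i : Fin 3) :
    ∑ R : Region, ∑ m : ∀ k, Fin (R.n k + 1), ∑ far : R.Cm → Bool,
      ∑ B ∈ (Finset.univ : Finset (Finset (W R m).Fr)).filter (fun B => B.card = 6),
        annL R m X T far B i = ∑ Q : H93.RB, valA X T i Q := by
  have h1 : ∀ (R : Region) (m : ∀ k, Fin (R.n k + 1)), (∑ far : R.Cm → Bool,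
      ∑ B ∈ (Finset.univ : Finset (Finset (W R m).Fr)).filter (fun B => B.card = 6),
        annL R m X T far B i) = ∑ B : Finset (W R m).Fr,
          if B.card = 6 then ∑ far : R.Cm → Bool, annL R m X T far B i else 0 := by
    intro R m
    rw [Finset.sum_comm, Finset.sum_filter]
  rw [Finset.sum_congr rfl fun R _ => Finset.sum_congr rfl fun m _ => h1 R m]
  rw [H93.sum_J95 (fun R m B =>
    if B.card = 6 then ∑ far : R.Cm → Bool, annL R m X T far B i else 0)]
  refine Finset.sum_congr rfl fun Q _ => ?_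
  unfold valA
  split_ifs with h9
  · have h2 : ∀ m ∈ (Finset.univ : Finset (∀ k, Fin (Q.n k + 1))).filter
        (fun m => ∀ k, (m k).1 ∈ Q.B k), (if (Q.fr m).card = 6 then
          ∑ far : (conv93.symm Q.toReg).Cm → Bool,
            annL (conv93.symm Q.toReg) m X T far (Q.fr m) i else 0) =
        ∑ far : (H728.rg Q).Cm → Bool, annL (H728.rg Q) m X T far (Q.fr m) i := by
      intro m hm
      have h3 := card_fr Q m (Finset.mem_filter.1 hm).2
      have h4 : (Q.fr m).card = 6 := by omega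
      exact if_pos h4
    refine (Finset.sum_congr rfl h2).trans ?_
    rw [Finset.sum_comm]
    exact Finset.sum_congr rfl fun far _ => hS T hT hW i Q h9 far
  · refine Finset.sum_eq_zero fun m hm => ?_
    have h3 := card_fr Q m (Finset.mem_filter.1 hm).2
    have h4 : ¬ (Q.fr m).card = 6 := by omega
    exact if_neg h4

/-! ### the limits of tori and annuli -/

section Lims

variable {X : Ext} {Θ : Gauge} {D : Loc2 H213.VV ℝ}

theorem tendsto_TOR (h2 : LimTorus X Θ) (h5 : LimRegT X Θ) (hS : SumT X)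
    (hD : ∀ v, ∀ b ∈ XX, D.Phi v b = PhiF X Θ (H503.mtV v) b) {w : H213.VV}
    (hW : WtT 9 (H503.mtV w)) {i j : Fin 3} (hij : i < j) :
    Tendsto (fun r => H828.TOR D r i j w) (𝓝[>] 0)
      (𝓝 (∑ Q : H93.RB, valT X (H503.mtV w) i j Q)) := by
  obtain ⟨r₀, hr₀, h⟩ := h2
  rw [← sum_torL hS (H503.symT_mtV w) hW hij]
  have h3 : Tendsto (fun r : ℝ => ∑ R : Region, ∑ m : ∀ k, Fin (R.n k + 1),
      ∑ far : R.Cm → Bool, torR R m X Θ (H503.mtV w) far i j (-2 * Real.log (8 * r))) (𝓝[>] 0)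
      (𝓝 (∑ R : Region, ∑ m : ∀ k, Fin (R.n k + 1), ∑ far : R.Cm → Bool,
      ∑ B ∈ (Finset.univ : Finset (Finset (W R m).Fr)).filter (fun B => B.card = 6),
        torL R m X (H503.mtV w) far B i j)) := by
    refine tendsto_finsetSum _ fun R _ => tendsto_finsetSum _ fun m _ =>
      tendsto_finsetSum _ fun far _ => ?_
    exact (h5 _ (H503.symT_mtV w) hW R m far i j hij).comp tendsto_N
  refine h3.congr' ?_
  filter_upwards [Ioc_mem_nhdsGT hr₀] with r hr
  exact (h r hr w D (hD w) i j hij).symm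

theorem tendsto_ANN (h2 : LimAnnulus X Θ) (h5 : LimRegA X Θ) (hS : SumA X)
    (hD : ∀ v, ∀ b ∈ XX, D.Phi v b = PhiF X Θ (H503.mtV v) b) {v : H213.VV}
    (hW : WtT 8 (H503.mtV v)) {i : Fin 3} (hv : H213.sV ⟨2 * i, by omega⟩ v = v) :
    Tendsto (fun r => H828.ANN D r i v) (𝓝[>] 0)
      (𝓝 (∑ Q : H93.RB, valA X (H503.mtV v) i Q)) := by
  obtain ⟨r₀, hr₀, h⟩ := h2
  rw [← sum_annL hS (H503.symT_mtV v) hW i]
  have hv' : ((H503.mtV v).compContinuousLinearMap fun _ => H95.sH ⟨2 * i, by omega⟩) =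
      H503.mtV v := by
    rw [← H503.mtV_sV, hv]
  have h3 : Tendsto (fun r : ℝ => ∑ R : Region, ∑ m : ∀ k, Fin (R.n k + 1),
      ∑ far : R.Cm → Bool, annR R m X Θ (H503.mtV v) far i (-2 * Real.log (8 * r))) (𝓝[>] 0)
      (𝓝 (∑ R : Region, ∑ m : ∀ k, Fin (R.n k + 1), ∑ far : R.Cm → Bool,
      ∑ B ∈ (Finset.univ : Finset (Finset (W R m).Fr)).filter (fun B => B.card = 6),
        annL R m X (H503.mtV v) far B i)) := by
    refine tendsto_finsetSum _ fun R _ => tendsto_finsetSum _ fun m _ =>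
      tendsto_finsetSum _ fun far _ => ?_
    exact (h5 i _ (H503.symT_mtV v) hW hv' R m far).comp tendsto_N
  refine h3.congr' ?_
  filter_upwards [Ioc_mem_nhdsGT hr₀] with r hr
  exact (h r hr i v D (hD v) hW hv).symm

end Lims

/-! ### the sum of the values -/

/-- the total value of a region with gaps -/
def val (z : H221.Cert H213.sV) (X : Ext) (Q : H93.RB) : ℝ :=
  valT X (H503.mtV z.w13) 0 1 Q + valT X (H503.mtV z.w15) 0 2 Q +
    valT X (H503.mtV z.w35) 1 2 Q - (valA X (H503.mtV z.v1) 0 Q +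
    valA X (H503.mtV z.v3) 1 Q + valA X (H503.mtV z.v5) 2 Q)

theorem good_card {Q : H93.RB} (h : Q.Good) : ∑ k, (Q.B k).card = 9 := h.1

theorem sum_value {z : H221.Cert H213.sV} {X : Ext} {F : H503.Form16} (h0 : ValZero)
    (hT : ValT) (hA : ValA) (hP : PieceSum F X) :
    ∑ Q, val z X Q = KL * ∑ q ∈ Finset.range 7, ∑ p ∈ Finset.range (q + 1), H25.CC z p q *
        H93.DS p q (H503.str F) := by
  have h := H93.sum_val (val z X) (fun p q => KL * H25.CC z p q) (H503.str F)
    (fun p q σ e c => if hp : p ≤ q then if hq : q ≤ 6 then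
      ∑ far : (H728.rg (H93.enc c.1 c.2.2 hp hq σ e c.2.1)).Cm → Bool,
        piece (H728.rg (H93.enc c.1 c.2.2 hp hq σ e c.2.1)) X far
          (gB (H93.enc c.1 c.2.2 hp hq σ e c.2.1)) else 0 else 0) ?_ ?_ ?_
  · rw [h, Finset.mul_sum]
    refine Finset.sum_congr rfl fun q _ => ?_
    rw [Finset.mul_sum]
    exact Finset.sum_congr rfl fun p _ => by ring
  · intro Q hQ
    by_cases h9 : ∑ k, (Q.B k).card = 9
    · have hz := h0 Q hQ h9
      have t : ∀ w i j, valT X (H503.mtV w) i j Q = 0 := by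
        intro w i j
        unfold valT
        rw [if_pos h9, Finset.sum_eq_zero]
        intro far _
        rw [(hz _ (H503.symT_mtV w)).1 i j, zero_mul]
      have a : ∀ w i, valA X (H503.mtV w) i Q = 0 := by
        intro w i
        unfold valA
        rw [if_pos h9, Finset.sum_eq_zero]
        intro far _
        rw [(hz _ (H503.symT_mtV w)).2 i, zero_mul]
      unfold val
      rw [t, t, t, a, a, a]
      ring
    · unfold val valT valA
      simp only [if_neg h9]
      ring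
  · intro p q hp hq σ e c hc
    have h9 := good_card (H93.enc_good (f := c.1) (o := c.2.2) (loc := c.2.1) (e := e) hp hq σ)
    have t : ∀ (w : H213.VV) (i j : Fin 3), i < j →
        valT X (H503.mtV w) i j (H93.enc c.1 c.2.2 hp hq σ e c.2.1) =
        KL * H25.torC i j w ![p, q - p, 6 - q] * ((H93.sgn σ : ℝ) * H93.sge e) *
        ∑ far : (H728.rg (H93.enc c.1 c.2.2 hp hq σ e c.2.1)).Cm → Bool,
        piece (H728.rg (H93.enc c.1 c.2.2 hp hq σ e c.2.1)) X far
          (gB (H93.enc c.1 c.2.2 hp hq σ e c.2.1)) := by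
      intro w i j hij
      unfold valT
      rw [if_pos h9, Finset.mul_sum]
      refine Finset.sum_congr rfl fun far _ => ?_
      rw [hT p q hp hq σ e c hc w i j hij]
    have a : ∀ (v : H213.VV) (i : Fin 3),
        valA X (H503.mtV v) i (H93.enc c.1 c.2.2 hp hq σ e c.2.1) =
        KL * H25.annC i v ![p, q - p, 6 - q] * ((H93.sgn σ : ℝ) * H93.sge e) *
        ∑ far : (H728.rg (H93.enc c.1 c.2.2 hp hq σ e c.2.1)).Cm → Bool,
        piece (H728.rg (H93.enc c.1 c.2.2 hp hq σ e c.2.1)) X far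
          (gB (H93.enc c.1 c.2.2 hp hq σ e c.2.1)) := by
      intro v i
      unfold valA
      rw [if_pos h9, Finset.mul_sum]
      refine Finset.sum_congr rfl fun far _ => ?_
      rw [hA p q hp hq σ e c hc v i]
    simp only [dif_pos hp, dif_pos hq]
    unfold val
    rw [t _ _ _ (by decide), t _ _ _ (by decide), t _ _ _ (by decide), a, a, a, H25.CC]
    ring
  · intro p q hp hq σ e
    simp only [dif_pos hp, dif_pos hq]
    exact hP p q hp hq σ e

/-! ### the target -/

/-- **The limit from the steps.** -/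
theorem limT_of {z : H221.Cert H213.sV} {Θ : Gauge} (hB : H221.Braid H213.sV) (hw : WtC z)
    (h2t : ∀ X, LimTorus X Θ) (h2a : ∀ X, LimAnnulus X Θ) (h5t : ∀ X, LimRegT X Θ)
    (h5a : ∀ X, LimRegA X Θ) (h6t : ∀ X, SumT X) (h6a : ∀ X, SumA X) (h0 : ValZero)
    (hT : ValT) (hA : ValA)
    (hP : ∀ (F : H503.Form16) (X : Ext), H183.IsClosedForm H503.Lg14 (8 * 2) F →
      H728.ExtOf F X → PieceSum F X) : LimT z Θ := by
  intro F hF X hX D hD
  rw [← sum_value h0 hT hA (hP F X hF hX)]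
  have t1 := tendsto_TOR (h2t X) (h5t X) (h6t X) hD hw.w13 (i := 0) (j := 1) (by decide)
  have t2 := tendsto_TOR (h2t X) (h5t X) (h6t X) hD hw.w15 (i := 0) (j := 2) (by decide)
  have t3 := tendsto_TOR (h2t X) (h5t X) (h6t X) hD hw.w35 (i := 1) (j := 2) (by decide)
  have a1 := tendsto_ANN (h2a X) (h5a X) (h6a X) hD hw.v1 (i := 0) (z.inv_v1 hB)
  have a2 := tendsto_ANN (h2a X) (h5a X) (h6a X) hD hw.v3 (i := 1) (z.inv_v3 hB)
  have a3 := tendsto_ANN (h2a X) (h5a X) (h6a X) hD hw.v5 (i := 2) (z.inv_v5 hB)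
  have h := ((t1.add t2).add t3).sub ((a1.add a2).add a3)
  simp only [← Finset.sum_add_distrib, ← Finset.sum_sub_distrib] at h
  exact h

end Vale.Agent.P273.H573

end
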