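import Vale.Agent.P273.H573.Close
import Vale.Agent.P273.H67.Fields
import Vale.Agent.P273.H894.RegA
import Vale.Agent.P273.H228.SumEnd
import Vale.Agent.P273.H577.Core
import Vale.Agent.P273.H92.PieceSum
import Vale.Agent.P273.H720.DomLim
import Vale.Agent.P273.H607.Exc
import Vale.Agent.P273.H254.ValP
import Vale.Agent.P273.H93.ValZero

/-!
# P273, LIM: all steps from the three that are still open
-/

noncomputable section

namespace Vale.Agent.P273.H573

open Set Filter MeasureTheory H681 H95 H732 H973 H562
open scoped Topology ContDiff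

theorem core_all (X : Ext) : H228.Core X := by
  intro T _ n Q h9 far m hm y hy α a b h1 h2 h3 h4 h5 h6
  exact H577.core X T n Q h9 far m hm y hy α a b h1 h2 h3 h4 h5 h6

theorem sumT_all (X : Ext) : SumT X := (H228.sum_end core_all).1 X

theorem sumA_all (X : Ext) : SumA X := (H228.sum_end core_all).2 X

/-- **all steps from `LimFib`, `LimRegT`, `PtA`** -/
theorem steps_of {κ : Fin 3 → Fin 3 → ℝ} (hF : ∀ X Θ, LimFib X Θ)
    (hT : ∀ X Θ, Asy κ Θ → LimRegT X Θ) (hA : ∀ X Θ, Asy κ Θ → PtA X Θ) : Steps κ where
  torus := H67.torusF hF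
  annulus := H67.annulusF hF
  regT := hT
  regA X Θ h := H894.limRegA H970.measDom (H970.contOm X Θ) H607.measExc H607.nullExc
    H607.genExc H720.domLim (H975.bdA X h) (hA X Θ h)
  sumT := sumT_all
  sumA := sumA_all
  val0 := H93.valZero
  valT := H254.valTP
  valA := H254.valAP
  piece F X hF hX := H92.pieceSum F X hF hX

end Vale.Agent.P273.H573

end
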